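import Crest.Agent.X212.Lev33.Ann4
import Crest.Agent.X212.Thk1.Col
import Crest.Agent.X212.Prd34.Rng
import Crest.Agent.X212.Rz42.Main
import Crest.Agent.X212.Thk1.Main_Mg
import Crest.Agent.X212.Dsc37.Cr
import Crest.Agent.X212.Dsc4.Defs
import Crest.Agent.R096.Cb6_609
import Crest.Agent.X212.Lad50.PL
import Crest.Agent.R096.Sk1_962
import Crest.Agent.X212.Tw9.Ch
import Crest.Agent.X212.Lad50.Pol
import Crest.Agent.X212.Ann83.Main
import Crest.Agent.X212.Cor42.Rep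
import Crest.Agent.X212.Geo46.Defs
import Crest.Agent.X212.Smo49.Wrap
import Crest.Agent.X212.Smo49.Box
import Crest.Agent.X212.Glb47.Box
import Crest.Agent.X212.Skel83.Top

-- ▼ part X212/Lev33/Ann5
section

/-!
# Row 212, layer T, ANN (helper33), part 5: collars of compact boundaries; `AnnStmt`
-/

set_option autoImplicit false

open Set Metric Topology Filter Crest.Agent.R096.Ce_537 Crest.Agent.X212.Prd34
  Crest.Agent.X212.Rg3 Crest.Agent.X212.Thk1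

namespace Crest.Agent.X212.Lev33

/-- **collar of a compact boundary** -/
theorem Mf.collar {M D : Set V} (h : Mf M D) (hD : IsCompact D) :
    ∃ P : Pc 0 M ∅ D, P.Q = D ∧ ∀ x ∈ D, P.O ∈ 𝓝[M] x := by
  refine collar0 hD h.1 fun x hx => ?_
  obtain ⟨B, e, e0, hB, h1, h2⟩ := h.2.2 x hx
  have sb : ∀ T, e.f '' (cube 3 ∩ T) ⊆ B := by rintro T _ ⟨y, hy, rfl⟩; exact e.mf hy.1
  have m1 : ∀ z ∈ B, ∀ t ∈ Icc (0 : ℝ) 1, lv t (pr (e.g z)) ∈ cube 3 := fun z hz t ht =>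
    lv_mem (abs_le.2 ⟨by linarith [ht.1], ht.2⟩) (pr_mem (e.mg hz))
  have z0 : (0 : ℝ) ∈ Icc (0 : ℝ) 1 := ⟨le_rfl, zero_le_one⟩
  have q0 : ∀ q ∈ e.f '' (cube 3 ∩ fl), e.f (lv 0 (pr (e.g q))) = q := by
    rintro _ ⟨y, hy, rfl⟩
    rw [e.li y hy.1, ← (hy.2 : y 2 = 0), lv_pr]
  refine ⟨⟨e.f '' (cube 3 ∩ fl), e.f '' (cube 3 ∩ up),
    ⟨fun q => e.f (lv q.2 (pr (e.g q.1))), fun z => (e.f (lv 0 (pr (e.g z))), e.g z 2), ?_, ?_,
      fun q hq => ⟨_, ⟨m1 _ (sb _ hq.1) _ hq.2, hq.2.1⟩, rfl⟩, ?_, fun q hq => ?_, ?_⟩,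
    ?_, fun z hz => (h2.superset hz).2, fun z hz => (h1.superset hz).2, q0, fun q hq t ht k => ?_,
    fun _ _ _ _ => Iff.rfl⟩, ?_⟩
  · have := e.pg.comp (pl_fst' ((e.f '' (cube 3 ∩ fl)) ×ˢ Icc (0 : ℝ) 1)) fun q hq => sb _ hq.1
    exact e.pf.comp (Lad50.pl_vec3 (pl_coord this 0) (pl_coord this 1) (pl_snd' _))
      fun q hq => m1 _ (sb _ hq.1) _ hq.2
  · have := e.pg.mono (sb up)
    exact pl_pair (e.pf.comp (Lad50.pl_vec3 (pl_coord this 0) (pl_coord this 1) (plOn_const 0 _))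
      fun z hz => m1 _ (sb _ hz) _ z0) (pl_coord this 2)
  · rintro _ ⟨y, hy, rfl⟩
    refine ⟨⟨_, ⟨m1 _ (e.mf hy.1) _ z0, rfl⟩, rfl⟩, ?_⟩
    simp only [e.li y hy.1]
    exact ⟨hy.2, (abs_le.1 (mem_cube.1 hy.1 2)).2⟩
  · simp only [e.li _ (m1 _ (sb _ hq.1) _ hq.2), pr_lv, q0 _ hq.1]
    rfl
  · rintro _ ⟨y, hy, rfl⟩
    simp only [e.li _ (m1 _ (e.mf hy.1) _ z0), pr_lv]
    rw [e.li y hy.1, lv_pr]
  · exact ((isCompact_closedBall (0 : V) 1).inter_right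
      (isClosed_eq (continuous_apply 2) continuous_const)).image_of_continuousOn
      (e.pf.1.mono inter_subset_left)
  · have m := m1 _ (sb _ hq) t ht
    exact (mem_img e m).1 (h2.subset ⟨e.mf m, k⟩)
  · show e.f '' (cube 3 ∩ up) ∈ _
    rw [← h1, inter_comm]
    exact inter_mem_nhdsWithin M hB

theorem col_of {H : V → V} (per : Per {0, 1} H) {W D : Set V} (mf : Mf W D) (cW : IsCompact W)
    (sub : W ⊆ range H) {v : Fin 2 → P → V} (vc : ∀ i, Continuous (v i))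
    (ve : ∀ i y m, lv 0 m ∈ lat {0, 1} → v i (y + m) = v i y + lv 0 m)
    (vp : ∀ i, LocPL (fun y => H (v i y)) univ)
    (vf : ∀ i i' y y', H (v i y) = H (v i' y') → i = i' ∧ lv 0 (y - y') ∈ lat {0, 1})
    (hD : ∀ z, z ∈ D ↔ ∃ i y, H (v i y) = z) {r : V → V} (rc : Continuous r)
    (rm : ∀ x, H (r x) ∈ W) (ri : ∀ x, H x ∈ W → r x = x) :
    ∃ Φ τ, Col H W Φ τ r ∧ (∀ i y, Φ i (lv 0 y) = v i y) ∧ Uo W τ = W \ D := by
  classical
  have cD : IsCompact D := by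
    convert cW.diff mf.2.1 using 1
    exact (sdiff_sdiff_cancel_left mf.1).symm
  obtain ⟨P, PQ, PO⟩ := Mf.collar mf cD
  have DO : D ⊆ interior (P.O ∪ Wᶜ) := fun x hx => mem_interior_iff_mem_nhds.2 (by
    filter_upwards [eventually_nhdsWithin_iff.1 (PO x hx)] with y hy
    exact (em (y ∈ W)).imp hy id)
  have pos : ∀ y ∈ P.O, y ∉ D → 0 < (P.c.g y).2 := fun y hy hn =>
    lt_of_le_of_ne (P.g2 hy).1 fun k => hn (P.memD hy k.symm)
  have c2 : ContinuousOn (fun y => (P.c.g y).2) P.O := continuous_snd.comp_continuousOn P.c.pg.1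
  obtain ⟨a, ha, hK⟩ := (P.cO.diff (isOpen_interior (s := P.O ∪ Wᶜ))).exists_forall_le'
    (c2.mono sdiff_subset) fun y hy => pos y hy.1 fun k => hy.2 (DO k)
  set δ := min a 1
  have d0 : 0 < δ := lt_min ha one_pos
  let τ : V → ℝ := fun z => if z ∈ P.O then min 1 (δ⁻¹ * (P.c.g z).2) else 1
  let F : Fin 2 → V → V := fun i p => P.c.f (H (v i (pr p)), δ * p 2)
  have mF : ∀ i, ∀ p ∈ Sl, (H (v i (pr p)), δ * p 2) ∈ P.Q ×ˢ Icc (0 : ℝ) 1 := fun i p hp =>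
    ⟨PQ.superset ((hD _).2 ⟨i, _, rfl⟩), mul_nonneg d0.le hp.1,
      mul_le_one₀ (min_le_right _ _) hp.1 hp.2⟩
  have pF : ∀ i, LPL (F i) Sl := fun i p _ => by
    obtain ⟨ε, hε, k⟩ := vp i (pr p) trivial
    obtain ⟨ε', hε', k'⟩ := Metric.mem_nhds_iff.1 (continuous_pr.continuousAt (ball_mem_nhds _ hε))
    exact ⟨ε', hε', P.c.pf.comp (pl_pair (k.comp (pl_pr _) fun q hq => k' hq.1)
      (pl_mul δ (Lad50.pl_coord 2 _))) fun q hq => mF i q hq.2⟩
  have cF : ∀ i, ContinuousOn (F i) Sl := fun i => P.c.pf.1.comp (Continuous.continuousOn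
    ((per.cont.comp ((vc i).comp continuous_pr)).prodMk (by fun_prop))) (mF i)
  have FO : ∀ i, ∀ p ∈ Sl, F i p ∈ P.O := fun i p hp => P.c.mf (mF i p hp)
  have s0 : ∀ y, lv 0 y ∈ Sl := fun y => ⟨le_rfl, zero_le_one⟩
  have F0 : ∀ i y, F i (lv 0 y) = H (v i y) := fun i y => by
    show P.c.f (H (v i (pr (lv 0 y))), δ * 0) = _
    rw [pr_lv, mul_zero]
    exact P.zero _ (PQ.superset ((hD _).2 ⟨i, _, rfl⟩))
  choose Φ Φc ΦF Φ0 using fun i => exists_lift_convex per convex_Sl (cF i)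
    (fun p hp => sub (P.OA (FO i p hp))) (s0 0) (F0 i 0).symm
  have cl : Continuous (lv 0) := continuous_lv.comp (continuous_const.prodMk continuous_id)
  have e0 : ∀ i y, Φ i (lv 0 y) = v i y := fun i y => by
    have := lift_uniq per (T := univ) isPreconnected_univ
      ((Φc i).comp cl.continuousOn fun x _ => s0 x) (vc i).continuousOn
      (fun t _ => (ΦF i _ (s0 t)).trans (F0 i t)) (s := 0) (t := y) trivial trivial
    simp only [Function.comp, Φ0, sub_self] at this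
    exact sub_eq_zero.1 this
  have el : ∀ l ∈ lat {0, 1}, lv 0 (pr l) = l := fun l hl => by rw [← lat2 hl, lv_pr]
  have eU : Uo W τ = W \ D := by
    ext z
    refine and_congr_right fun _ => ⟨fun k hz => ?_, fun k => ?_⟩
    · have zO := P.QO le_rfl (PQ.superset hz)
      simp [τ, zO, P.g2_zero zO hz] at k
    · show 0 < τ z
      simp only [τ]
      split_ifs with q
      exacts [lt_min one_pos (mul_pos (inv_pos.2 d0) (pos z q k)), one_pos]
  refine ⟨Φ, τ, ⟨per, cW, sub, show IsOpen (Uo W τ) from eU ▸ mf.2.1, Φc, fun i p hp l hl => ?_,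
    fun i p hp => ?_, fun i i' p hp p' hp' e => ?_, fun i p hp => ?_, ?_, fun i p hp => ?_,
    fun z hz k => ?_, rc, rm, ri⟩, e0, eU⟩
  · have := lift_uniq per convex_Sl.isPreconnected (g := fun p => Φ i (p + l))
      ((Φc i).comp (by fun_prop) fun p hp => sl_add hp hl) (Φc i) (fun q hq => by
        rw [ΦF i _ (sl_add hq hl), ΦF i _ hq]
        simp only [F]
        rw [show pr (q + l) = pr q + pr l by funext k; fin_cases k <;> rfl,
          ve i _ _ (by rwa [el l hl]), per_add per _ (by rwa [el l hl]), Pi.add_apply, lat2 hl,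
          add_zero]) (s0 0) hp
    rw [show lv 0 0 + l = lv 0 (0 + pr l) by
      rw [zero_add, el l hl]; funext k; fin_cases k <;> simp [lv], e0, e0,
      ve i _ _ (by rwa [el l hl]), el l hl, add_sub_cancel_left] at this
    exact sub_eq_iff_eq_add'.1 this
  · obtain ⟨ε, hε, k⟩ := pF i p hp
    exact ⟨ε, hε, k.congr fun q hq => ΦF i q hq.2⟩
  · rw [ΦF i p hp, ΦF i' p' hp'] at e
    have k := P.c.injOn (mF i p hp) (mF i' p' hp') e
    obtain ⟨k1, k2⟩ := vf _ _ _ _ (congrArg Prod.fst k)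
    have k3 : p 2 = p' 2 := mul_left_cancel₀ d0.ne' (congrArg Prod.snd k)
    refine ⟨k1, ?_⟩
    convert k2 using 1
    funext a; fin_cases a <;> simp [lv, pr, k3]
  · rw [ΦF i p hp]; exact P.OA (FO i p hp)
  · refine ((ContinuousOn.congr (f := fun z => min 1 (δ⁻¹ * (P.c.g z).2))
      (continuousOn_const.inf (continuousOn_const.mul c2)) fun z hz => if_pos hz).union_of_isClosed
      (ContinuousOn.congr (f := fun _ => 1) continuousOn_const fun z hz => ?_) P.cO.isClosed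
      (cW.diff (isOpen_interior (s := P.O ∪ Wᶜ))).isClosed).mono fun z hz => ?_
    · show (if z ∈ P.O then _ else _) = _
      split_ifs with q
      · refine min_eq_left ?_
        rw [le_inv_mul_iff₀ d0, mul_one]
        exact (min_le_left _ _).trans (hK z ⟨q, hz.2⟩)
      · rfl
    · by_cases q : z ∈ interior (P.O ∪ Wᶜ)
      · exact Or.inl ((interior_subset q).resolve_right fun k => k hz)
      · exact Or.inr ⟨hz, q⟩
  · rw [ΦF i p hp]
    simp only [τ, if_pos (FO i p hp)]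
    rw [P.c.li _ (mF i p hp), inv_mul_cancel_left₀ d0.ne', min_eq_right hp.2]
  · have q : z ∈ P.O := by
      by_contra q
      simp [τ, q] at k
    simp only [τ, if_pos q, min_lt_iff, lt_self_iff_false, false_or] at k
    obtain ⟨i, y, e⟩ := (hD _).1 (P.QD (P.g1 q))
    have m : lv (δ⁻¹ * (P.c.g z).2) y ∈ Sl := ⟨mul_nonneg (inv_pos.2 d0).le (P.g2 q).1, k.le⟩
    refine ⟨i, _, m, ?_⟩
    rw [ΦF i _ m]
    show P.c.f (H (v i (pr (lv _ y))), δ * (δ⁻¹ * (P.c.g z).2)) = z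
    rw [pr_lv, e, mul_inv_cancel_left₀ d0.ne', P.fg q]

/-- **(ANN)** -/
theorem ann (hF : FlatStmt) (inc : IncStmt) (ar : AnnRec) : AnnStmt := by
  intro H hH c u u' hu hu'
  have hc : c + 1 / 3 ≤ c + 1 - 1 / 3 := by linarith
  have h2 : (2 : Fin 3) ∉ ({0, 1} : Finset (Fin 3)) := by decide
  obtain ⟨mf, e⟩ := mf_blk0 hF hH hu hu' hc
  obtain ⟨r, rc, rm, ri⟩ := (hu.pln3 hF (by simp) hH).toPln2.exists_retr
    (hu'.pln3 hF (by simp) hH).toPln2 (by rintro _ ⟨y, rfl⟩; exact Or.inl (hu.sub_Up hu' hc y))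
  have sl : ∀ x, x ∈ slab ∅ := fun x i hi => absurd hi (Finset.notMem_empty i)
  have fb : ∀ {c δ : ℝ} {u : P → V}, Rung ∅ {0, 1} H c δ u → ∀ y y', H (u y) = H (u y') →
      lv 0 (y - y') ∈ lat {0, 1} := by
    intro c δ u hu y y' e
    have hl := (hH.fib _ _).1 e
    have el : lv 0 (pr (u y - u y')) = u y - u y' := by rw [← lat2 hl, lv_pr]
    have := hu.eqv y' (pr (u y - u y')) (by rwa [el])
    rw [el, add_sub_cancel] at this
    rwa [← hu.inj this, add_sub_cancel_left, el]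
  have ne : ∀ y y', H (u y) ≠ H (u' y') := fun y y' e => by
    linarith [coord_eq hH e h2, abs_lt.1 (hu.ht y), abs_lt.1 (hu'.ht y')]
  obtain ⟨Φ, τ, col, e0, eU⟩ := col_of hH mf (isCompact_blk hF (by simp) (by simp) hH hu hu')
    (image_subset_range _ _) (v := ![u, u'])
    (fun i => by fin_cases i; exacts [hu.cont, hu'.cont])
    (fun i => by fin_cases i; exacts [hu.eqv, hu'.eqv])
    (fun i => by fin_cases i; exacts [hu.pl, hu'.pl])
    (fun i i' y y' e => by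
      fin_cases i <;> fin_cases i'
      exacts [⟨rfl, fb hu y y' e⟩, (ne _ _ e).elim, (ne _ _ e.symm).elim, ⟨rfl, fb hu' y y' e⟩])
    (fun z => ⟨by
      rintro ⟨_, ⟨y, rfl⟩ | ⟨y, rfl⟩, rfl⟩
      exacts [⟨0, y, rfl⟩, ⟨1, y, rfl⟩], by
      rintro ⟨i, y, rfl⟩
      fin_cases i
      exacts [⟨_, Or.inl ⟨y, rfl⟩, rfl⟩, ⟨_, Or.inr ⟨y, rfl⟩, rfl⟩]⟩) rc
    (fun x => ⟨r x, ⟨⟨sl _, (rm x).1⟩, (rm x).2⟩, rfl⟩) fun x hx => by
      have := hH.sat (hu.add_Blk (by simp) h2 hu') x hx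
      exact ri x ⟨this.1.2, this.2⟩
  obtain ⟨α, hα⟩ := col.ann inc ar
  refine ⟨α, fun j => ?_⟩
  obtain ⟨k1, k2, k3, k4, k5, k6⟩ := hα j
  refine ⟨k1, k2, fun s => ⟨(k3 s).1.trans (e0 0 ![s, hf j]), (k3 s).2.trans (e0 1 ![s, hf j])⟩,
    fun y y0 y1 => ?_, k5, k6⟩
  have := k4 y y0 y1
  rw [eU, e] at this
  exact hH.sat (Z := Up u ∩ Dn u') (fun l hl x hx => ⟨hu.add_Up h2 hl hx.1, hu'.add_Dn h2 hl hx.2⟩) _ this

end Crest.Agent.X212.Lev33
end

-- ▼ part X212/Lev33/Main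
section

/-!
# Row 212, layer T, LEV+RUNG (helper33): export
-/

set_option autoImplicit false

namespace Crest.Agent.X212.Lev33

open Crest.Agent.X212.Prd34

theorem incStmt (lt : LTStmt) (sp : SphStmt) : IncStmt := inc lt Thk1.thickStmt Lad50.compStmt sp

theorem rung0Stmt (lt : LTStmt) (sp : SphStmt) (tr : TorRec) : Rung0Stmt :=
  Rz42.rung0 Lvf3.lev (incStmt lt sp) tr

theorem rung1Stmt (lt : LTStmt) (sp : SphStmt) (ar : AnnRec) : Rung1Stmt :=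
  Rg3.rung1 (incStmt lt sp) Lvf3.lev ar

theorem annStmt (lt : LTStmt) (sp : SphStmt) (ar : AnnRec) : AnnStmt :=
  ann Thk1.flatStmt (incStmt lt sp) ar

end Crest.Agent.X212.Lev33
end

-- ▼ part X212/Dsc37/Mk
section

/-!
# The cut surface of a disc and its translate is a `Cut`
-/

namespace Crest.Agent.X212.Dsc37

open Finset

section Flags
variable {P : Type*} [Fintype P]

theorem sum_ind (T : P → Prop) [DecidablePred T] (a : ZMod 2) :
    ∑ x, (if T x then a else 0) = ({x | T x}.ncard : ZMod 2) * a := by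
  rw [← sum_filter, sum_const, nsmul_eq_mul, ← Set.ncard_coe_finset]
  congr 3; ext x; simp

theorem two_mul_z2 (a : ZMod 2) : ((2 : ℕ) : ZMod 2) * a = 0 := by revert a; decide

open Classical in
/-- counting flags -/
theorem flags {le : P → P → Prop} {r0 r1 r2 H : P → Prop} {c : P → P → ZMod 2}
    (hc : ∀ x y z, r0 x → r1 y → r2 z → le x y → le y z → c x z = c x y + c y z)
    (ht : ∀ x y z, le x y → le y z → le x z)
    (h1 : ∀ y, r1 y → {z | r2 z ∧ le y z}.ncard = 2)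
    (h2 : ∀ x z, r0 x → r2 z → le x z → {y | r1 y ∧ le x y ∧ le y z}.ncard = 2)
    (h3 : ∀ y, r1 y → {x | r0 x ∧ le x y}.ncard = if H y then 1 else 2) :
    ∑ y, ∑ z, (if (r1 y ∧ H y) ∧ r2 z ∧ le y z then c y z else 0) = 0 := by
  let F : P → P → P → Prop := fun x y z => r0 x ∧ r1 y ∧ r2 z ∧ le x y ∧ le y z
  have a : ∑ x, ∑ y, ∑ z, (if F x y z then c x y else 0) = 0 := by
    refine sum_eq_zero fun x _ => sum_eq_zero fun y _ => ?_
    rw [sum_ind]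
    by_cases q : r0 x ∧ r1 y ∧ le x y
    · rw [show {z | F x y z} = {z | r2 z ∧ le y z} by ext; simp [F, q], h1 y q.2.1, two_mul_z2]
    · rw [show {z | F x y z} = ∅ by ext; simp only [F, Set.mem_ofPred_eq]; tauto]; simp
  have b : ∑ x, ∑ y, ∑ z, (if F x y z then c x z else 0) = 0 := by
    refine sum_eq_zero fun x _ => ?_
    rw [sum_comm]
    refine sum_eq_zero fun z _ => ?_
    rw [sum_ind]
    by_cases q : r0 x ∧ r2 z ∧ le x z
    · rw [show {y | F x y z} = {y | r1 y ∧ le x y ∧ le y z} by ext; simp [F, q],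
        h2 x z q.1 q.2.1 q.2.2, two_mul_z2]
    · rw [show {y | F x y z} = ∅ from Set.eq_empty_of_forall_notMem fun y k =>
        q ⟨k.1, k.2.2.1, ht _ _ _ k.2.2.2.1 k.2.2.2.2⟩]; simp
  have d : ∑ x, ∑ y, ∑ z, (if F x y z then c x z else 0) =
      ∑ x, ∑ y, ∑ z, (if F x y z then c x y else 0) +
        ∑ x, ∑ y, ∑ z, (if F x y z then c y z else 0) := by
    simp only [← sum_add_distrib]
    refine sum_congr rfl fun x _ => sum_congr rfl fun y _ => sum_congr rfl fun z _ => ?_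
    split_ifs with q
    exacts [hc x y z q.1 q.2.1 q.2.2.1 q.2.2.2.1 q.2.2.2.2, (add_zero _).symm]
  rw [a, b, zero_add, sum_comm] at d
  refine Eq.trans ?_ d.symm
  refine sum_congr rfl fun y _ => ?_
  rw [sum_comm]
  refine sum_congr rfl fun z _ => ?_
  rw [sum_ind]
  by_cases q : r1 y ∧ r2 z ∧ le y z
  · rw [show {x | F x y z} = {x | r0 x ∧ le x y} by ext; simp [F, q], h3 y q.1]
    by_cases k : H y
    · simp [q, k]
    · simp only [k, and_false, false_and, if_false, two_mul_z2]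
  · rw [show {x | F x y z} = ∅ by ext; simp only [F, Set.mem_ofPred_eq]; tauto,
      if_neg (by tauto)]; simp

open Classical in
theorem pairs {le : P → P → Prop} {r0 r1 H : P → Prop}
    (h1 : ∀ x, r0 x → {y | r1 y ∧ le x y}.ncard = 2)
    (h3 : ∀ y, r1 y → {x | r0 x ∧ le x y}.ncard = if H y then 1 else 2) :
    Even {y | r1 y ∧ H y}.ncard := by
  have a : ∑ x, ∑ y, (if r0 x ∧ r1 y ∧ le x y then (1 : ZMod 2) else 0) = 0 := by
    refine sum_eq_zero fun x _ => ?_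
    rw [sum_ind]
    by_cases q : r0 x
    · simp only [q, true_and, h1 x q, two_mul_z2]
    · simp [q]
  rw [sum_comm] at a
  rw [← ZMod.natCast_eq_zero_iff_even]
  refine ((mul_one _).symm.trans (sum_ind _ _).symm).trans (Eq.trans ?_ a)
  refine sum_congr rfl fun y _ => ?_
  rw [sum_ind]
  by_cases q : r1 y
  · simp only [q, true_and, h3 y q]
    by_cases k : H y
    · simp [k]
    · simp only [k, if_false, two_mul_z2]
  · simp [q]

end Flags

namespace S2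
variable {G : Type} [AddGroup G] {U B : Dat G} {S : S2 U B}

/-- translation or identity -/
def tb (S : S2 U B) (b : ZMod 2) (σ : Finset U.V) : Finset U.V := if b = 0 then σ else S.t σ

theorem tb_add (a b : ZMod 2) (σ : Finset U.V) : S.tb (a + b) σ = S.tb a (S.tb b σ) := by
  have : ∀ c : ZMod 2, c = 0 ∨ c = 1 := by decide
  rcases this a with rfl | rfl <;> rcases this b with rfl | rfl <;> simp [tb, tt, z2_self]

theorem tb_p (a : ZMod 2) (σ : Finset U.V) : (S.tb a σ).image S.d.p = σ.image S.d.p := by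
  unfold tb; split_ifs; exacts [rfl, pt σ]

theorem tb_K (a : ZMod 2) {σ : Finset U.V} (h : σ ∈ U.K) : S.tb a σ ∈ U.K := by
  unfold tb; split_ifs; exacts [h, S.d.τK σ h]

theorem tb_cr (a : ZMod 2) {σ : Finset U.V} (h : S.Cr σ) : S.Cr (S.tb a σ) := by
  unfold tb; split_ifs; exacts [h, h.t]

theorem tb_mono (a : ZMod 2) {σ ρ : Finset U.V} (h : σ ⊆ ρ) : S.tb a σ ⊆ S.tb a ρ := by
  unfold tb; split_ifs; exacts [h, image_subset_image h]

open Classical in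
/-- the Klein group acts on half cells -/
noncomputable def act (u : K4) (x : S.P) : S.P :=
  if h : S.Cr x.b then ⟨(S.tb u.2 x.b, x.l + u.1), ⟨tb_K _ x.K, (tb_cr _ h).mx (tb_K _ x.K)⟩,
    fun q => (q (tb_cr _ h)).elim⟩ else x

theorem act_b (u : K4) {x : S.P} (h : S.Cr x.b) : (act u x).b = S.tb u.2 x.b := by
  rw [act, dif_pos h]; rfl
theorem act_l (u : K4) {x : S.P} (h : S.Cr x.b) : (act u x).l = x.l + u.1 := by
  rw [act, dif_pos h]; rfl
theorem act_cr (u : K4) {x : S.P} (h : S.Cr x.b) : S.Cr (act u x).b := by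
  rw [act_b u h]; exact tb_cr _ h

theorem not_sub_t {ρ σ : Finset U.V} (hσ : σ ∈ U.K) (m : Mt S.d.E ρ) (a : ρ ⊆ σ) :
    ¬ ρ ⊆ S.t σ := fun b => by
  obtain ⟨v, hv, hE⟩ := m
  exact S.d.img_ne hσ ⟨v, a hv, hE⟩
    (S.d.uniq v hE _ (S.d.τK σ hσ) σ hσ (b hv) (a hv) (pt σ))

theorem mtE_t {σ : Finset U.V} (m : Mt S.d.E σ) : Mt S.d.E (S.t σ) := by
  obtain ⟨v, hv, hE⟩ := m; exact ⟨_, mem_image_of_mem _ hv, S.d.τE v hE⟩

theorem card_cr {x : S.P} (c : S.Cr x.b) : x.b.card = 3 ∨ x.b.card = 4 := by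
  have := c.card x.K
  have := S.hU.dimK _ x.K
  omega

theorem lt_cr {x y : S.P} (c : S.Cr x.b) (h : le x y) :
    x ≠ y ↔ x.b.card = 3 ∧ y.b.card = 4 := by
  have a := card_cr c
  have b := card_cr (c.mono h.1)
  constructor
  · intro n
    have := card_lt_card (Finset.ssubset_iff_subset_ne.2 ⟨h.1, fun e => n (P.ext e ((le_cr c).1 h).2)⟩)
    omega
  · rintro ⟨p, q⟩ rfl; omega

theorem abv_eq {x : S.P} (c : S.Cr x.b) (h3 : x.b.card = 3) :
    (abv le {x : S.P | S.Cr x.b} x).ncard = {T | T ∈ U.K ∧ T.card = 4 ∧ x.b ⊆ T}.ncard := by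
  rw [← ncard_up x (fun T => T.card = 4)]
  congr 1; ext y
  exact ⟨fun q => ⟨((lt_cr c q.2.1).1 q.2.2).2, q.2.1⟩,
    fun q => ⟨c.mono q.2.1, q.2, (lt_cr c q.2).2 ⟨h3, q.1⟩⟩⟩

theorem two : Two le {x : S.P | S.Cr x.b} {x | x.b.card = 3} {x | x.b ∈ U.F} := by
  refine ⟨fun x c y _ h n => ?_, fun y c n => ?_, fun x c h3 n => ?_, fun x c f => ?_⟩
  · have := (lt_cr c h).1 n
    exact ⟨this.1, fun q => by have : y.b.card = 3 := q; omega⟩
  · have h4 : y.b.card = 4 := (card_cr c).resolve_left n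
    rw [← cr_two y.K c h4]
    refine Set.ncard_congr (fun z _ => z.b) (fun z h => ⟨h.2.1.1, ((lt_cr h.1 h.2.1).1 h.2.2).1, h.1⟩)
      (fun a b p q e => P.ext e (((le_cr p.1).1 p.2.1).2.trans ((le_cr q.1).1 q.2.1).2.symm))
      fun t h => ?_
    have m := S.hU.cxK.down _ y.K t h.1 (card_pos.1 (by rw [h.2.1]; decide))
    let x : S.P := ⟨(t, y.l), ⟨m, h.2.2.mx m⟩, fun q => (q h.2.2).elim⟩
    have l : le x y := (le_cr h.2.2).2 ⟨h.1, rfl⟩
    exact ⟨x, ⟨h.2.2, l, (lt_cr h.2.2 l).2 ⟨h.2.1, h4⟩⟩, rfl⟩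
  · rw [abv_eq c h3]; exact S.hU.triI _ x.K h3 x.mtA n
  · have h3 : x.b.card = 3 := le_antisymm (S.hU.dimF _ f) (Cr.card x.K c)
    exact ⟨h3, by rw [abv_eq c h3]; exact S.hU.triB _ f h3 x.mtA⟩

open Classical in
theorem edge_cnt (y : S.P) (h3 : y.b.card = 3) :
    {x : S.P | x.b.card = 2 ∧ le x y}.ncard = if S.Cr y.b then 1 else 2 := by
  split_ifs with c
  exacts [edge_c y h3 c, edge_n y h3 c]

theorem stokes (W : Set S.P) (hW : ∀ x y, le x y → (x ∈ W ↔ y ∈ W))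
    (hb : W ∩ {x | x.b ∈ U.F} = ∅) (c : S.P → S.P → ZMod 2) (hc : Coc le W c) :
    per le (W ∩ {x | S.Cr x.b}) c = 0 := by
  classical
  have := flags (le := le) (r0 := fun x : S.P => x ∈ W ∧ x.b.card = 2)
    (r1 := fun x => x ∈ W ∧ x.b.card = 3) (r2 := fun x => x ∈ W ∧ x.b.card = 4)
    (H := fun x => S.Cr x.b) (c := c) (fun x y z a b d => hc x a.1 y b.1 z d.1)
    (fun _ _ _ => le_trans) (fun y h => ?_) (fun x z a b e => ?_) (fun y h => ?_)
  · rw [per, prs, sum_filter, Fintype.sum_prod_type]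
    refine Eq.trans (sum_congr rfl fun y _ => sum_congr rfl fun z _ => ?_) this
    congr 1
    exact propext ⟨fun ⟨a, b, e, n⟩ => ⟨⟨⟨a.1, ((lt_cr a.2 e).1 n).1⟩, a.2⟩, ⟨b.1, ((lt_cr a.2 e).1 n).2⟩, e⟩,
      fun ⟨⟨a, k⟩, b, e⟩ => ⟨⟨a.1, k⟩, ⟨b.1, k.mono e.1⟩, e, (lt_cr k e).2 ⟨a.2, b.2⟩⟩⟩
  · rw [← S.hU.triI _ y.K h.2 y.mtA fun q => Set.eq_empty_iff_forall_notMem.1 hb y ⟨h.1, q⟩,
      ← ncard_up y (fun T => T.card = 4)]
    congr 1; ext z
    exact ⟨fun q => ⟨q.1.2, q.2⟩, fun q => ⟨⟨(hW y z q.2).1 h.1, q.1⟩, q.2⟩⟩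
  · rw [← Lad50.ncard_between e.1 (by rw [a.2, b.2]), a.2]
    have := ncard_up x (fun t => t.card = 3 ∧ t ⊆ z.b)
    rw [show {σ | σ ∈ U.K ∧ (σ.card = 3 ∧ σ ⊆ z.b) ∧ x.b ⊆ σ} =
      {ρ | x.b ⊆ ρ ∧ ρ ⊆ z.b ∧ ρ.card = 2 + 1} from Set.ext fun ρ => ⟨fun q => ⟨q.2.2, q.2.1.2, q.2.1.1⟩,
        fun q => ⟨S.hU.cxK.down _ z.K ρ q.2.1 (card_pos.1 (by rw [q.2.2]; decide)), ⟨q.2.2, q.2.1⟩, q.1⟩⟩] at this
    rw [← this]
    congr 1; ext y
    exact ⟨fun q => ⟨⟨q.1.2, q.2.2.1⟩, q.2.1⟩,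
      fun q => ⟨⟨(hW x y q.2).1 a.1, q.1.1⟩, q.2, le_mid q.2 e q.1.2⟩⟩
  · rw [← edge_cnt y h.2]
    congr 1; ext x
    exact ⟨fun q => ⟨q.1.2, q.2⟩, fun q => ⟨⟨(hW x y q.2).2 h.1, q.1⟩, q.2⟩⟩

theorem parity (W : Set S.P) (hb : W ⊆ {x | x.b ∈ U.F})
    (hW : ∀ x ∈ {x : S.P | x.b ∈ U.F}, ∀ y ∈ {x : S.P | x.b ∈ U.F}, le x y → (x ∈ W ↔ y ∈ W)) :
    Even (W ∩ {x | S.Cr x.b}).ncard := by
  classical
  have := pairs (le := le) (r0 := fun x : S.P => x ∈ W ∧ x.b.card = 2)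
    (r1 := fun x => x ∈ W ∧ x.b.card = 3) (H := fun x => S.Cr x.b) (fun x h => ?_) (fun y h => ?_)
  · convert this using 2
    ext y
    exact ⟨fun q => ⟨⟨q.1, le_antisymm (S.hU.dimF _ (hb q.1)) (Cr.card y.K q.2)⟩, q.2⟩,
      fun q => ⟨q.1.1, q.2⟩⟩
  · rw [← S.hU.edgB _ (hb h.1) h.2 x.mtA]
    have := ncard_up x (fun t => t ∈ U.F ∧ t.card = 3)
    rw [show {σ | σ ∈ U.K ∧ (σ ∈ U.F ∧ σ.card = 3) ∧ x.b ⊆ σ} =
      {t | t ∈ U.F ∧ t.card = 3 ∧ x.b ⊆ t} from Set.ext fun ρ => ⟨fun q => ⟨q.2.1.1, q.2.1.2, q.2.2⟩,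
        fun q => ⟨S.hU.FK q.1, ⟨q.1, q.2.1⟩, q.2.2⟩⟩] at this
    rw [← this]
    congr 1; ext y
    exact ⟨fun q => ⟨⟨hb q.1.1, q.1.2⟩, q.2⟩,
      fun q => ⟨⟨(hW x (hb h.1) y q.1.1 q.2).1 h.1, q.1.2⟩, q.2⟩⟩
  · rw [← edge_cnt y h.2]
    congr 1; ext x
    exact ⟨fun q => ⟨q.1.2, q.2⟩, fun q => ⟨⟨(hW x (S.hU.cxF.down _ (hb h.1) _ q.2.1
      (S.hU.cxK.ne _ x.K)) y (hb h.1) q.2).2 h.1, q.1⟩, q.2⟩⟩

theorem P.pF {x : S.P} : x.b ∈ U.F ↔ x.b.image S.d.p ∈ B.F := S.d.bd _ x.K x.mtE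

theorem P.pA (x : S.P) : Mt B.A (x.b.image S.d.p) := by
  obtain ⟨a, h, e⟩ := x.mtE
  exact ⟨_, mem_image_of_mem _ h, S.d.pE a e⟩

variable (S) in
/-- the cut surface -/
noncomputable def cut : Cut S.P G where
  le := le
  H := {x | S.Cr x.b}
  bd := {x | x.b ∈ U.F}
  lo := {x | x.b.card = 3}
  act := act
  lab := P.l
  g x y := B.g (x.b.image S.d.p) (y.b.image S.d.p)
  refl := le_refl
  trans _ _ _ := le_trans
  up _ c _ e := Cr.mono c e.1
  act_zero x := by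
    by_cases c : S.Cr x.b
    · exact P.ext (by rw [act_b _ c]; rfl) (by rw [act_l _ c]; exact add_zero _)
    · exact dif_neg c
  act_add u v x c := P.ext (by rw [act_b _ c, act_b _ (act_cr _ c), act_b _ c]; exact tb_add _ _ _)
    (by rw [act_l _ c, act_l _ (act_cr _ c), act_l _ c, Prod.fst_add]; ring)
  actH u _ c := act_cr u c
  act_mono u x c y e := (le_cr (act_cr u c)).2 ⟨by
    rw [act_b _ c, act_b _ (Cr.mono c e.1)]; exact tb_mono _ e.1, by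
    rw [act_l _ c, act_l _ (Cr.mono c e.1), ((le_cr c).1 e).2]⟩
  sep u hu y c x a b := by
    by_cases q : u.2 = 0
    · have e : (act u y).b = y.b := by rw [act_b _ c, tb, if_pos q]
      have := b.2 (act_cr u c)
      rw [e, a.2 c, act_l _ c] at this
      exact hu (Prod.ext (by simpa using this) q)
    · have := b.1
      rw [act_b _ c, tb, if_neg q] at this
      exact not_sub_t y.K x.mtE a.1 this
  act_bd u x c f := P.pF.2 (by rw [act_b _ c, tb_p]; exact P.pF.1 f)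
  lab_le x c y e := ((le_cr c).1 e).2
  lab_act u x c := act_l u c
  two := two
  stokes := stokes
  parity := parity
  g_act u y c x := by rw [act_b _ c, tb_p]
  g_self x f := S.hB.coc.self ⟨P.pF.1 f, x.pA⟩ subset_rfl

theorem ls_fl {x y : S.P} : S.cut.ls (fun _ => fl) x y ↔ x.b ⊆ y.b := by
  have e : ∀ y : S.P, S.Cr y.b → (act fl y).b = y.b := fun y c => act_b fl c
  refine ⟨fun h => h.elim (fun h => h.1) fun h => e y h.1 ▸ h.2.1, fun h => ?_⟩
  by_cases q : S.Cr y.b → side y.b x = y.l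
  · exact Or.inl ⟨h, q⟩
  · push Not at q
    refine Or.inr ⟨q.1, (e y q.1).symm ▸ h, fun _ => ?_⟩
    change side (act fl y).b x = (act fl y).l
    rw [e y q.1, act_l _ q.1]
    have := q.2
    revert this; generalize side y.b x = a; generalize y.l = b; revert a b; decide

theorem good_init : S.cut.Good (fun _ => fl) Set.univ := by
  have rf : ∀ {Y : Set (Finset U.V)}, ∀ y ∈ Y, sub y y := fun _ _ => subset_rfl
  have tr : ∀ {Y : Set (Finset U.V)}, ∀ x ∈ Y, ∀ y ∈ Y, ∀ z ∈ Y, sub x y → sub y z → sub x z :=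
    fun _ _ _ _ _ _ a b => a.trans b
  have mm : ∀ {Y : Set S.P}, ∀ x ∈ Y, ∀ y ∈ Y, S.cut.ls (fun _ => fl) x y → sub x.b y.b :=
    fun _ _ _ _ e => ls_fl.1 e
  have fb : ∀ (Y : Set S.P) (σ : Finset U.V) (h : σ ∈ Sf U.K S.w),
      (⟨(σ, 0), h, fun _ => rfl⟩ : S.P) ∈ Y → Ac (S.cut.ls fun _ => fl) (Fb sub Y P.b σ) :=
    fun Y σ h m => Ac.of_top (m := ⟨(σ, 0), h, fun _ => rfl⟩) ⟨m, subset_rfl⟩
      fun x hx => ls_fl.2 hx.2
  have a := Ac.quillen (W := Set.univ) (Y := Sf U.K S.w) (f := P.b) rf tr (fun x _ => ⟨x.K, x.mx⟩) mm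
    (fun σ h => fb _ σ h trivial) ⟨S.disc.conn, S.disc.h0⟩
  have mp : ∀ x ∈ Set.univ ∩ S.cut.bd, x.b ∈ Sf U.F S.w := fun x h => ⟨h.2, x.mx⟩
  have fB : ∀ σ ∈ Sf U.F S.w, Conn (S.cut.ls fun _ => fl) (Fb sub (Set.univ ∩ S.cut.bd) P.b σ) :=
    fun σ h => (fb (Set.univ ∩ S.cut.bd) σ ⟨S.hU.FK h.1, h.2⟩ ⟨trivial, h.1⟩).1
  refine ⟨⟨fun _ _ => fl_ne, fun _ _ _ _ => rfl, fun _ _ _ => rfl⟩, fun _ _ _ => Iff.rfl, a.1, a.2,
    Conn.quillen rf tr mp fB S.disc.connB, fun q => S.disc.ess (Cob.quillen tr mp mm fB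
      (S.hU.coc.mono (fun σ m => ⟨m.1, S.disc.mt (S.hU.FK m.1) m.2⟩) fun _ _ _ _ e => e)
      (q.congr fun x hx y hy e => (S.d.geq _ hx.2 _ hy.2 x.mtE (ls_fl.1 e)).symm))⟩

end S2

end Crest.Agent.X212.Dsc37
end

-- ▼ part X212/Dsc37/Fin
section

/-!
# The local colourings of a resolved disc
-/

namespace Crest.Agent.X212.Dsc37

open Finset

theorem K4.c0 : ∀ u : K4, u ≠ 0 → u = fl ∨ u = dk ∨ u = fl + dk := by decide
theorem z2_01 : ∀ a : ZMod 2, a = 0 ∨ a = 1 := by decide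

/-- the far side of a sheet, in terms of the vertex types of a face -/
def qf (cr : Prop) (s : K4) (l : ZMod 2) (a b c : Prop) : Prop :=
  ((¬ cr ∨ s = fl) ∧ ¬ b) ∨ (cr ∧ s = dk ∧ l = 0 ∧ ¬ b ∧ ¬ c) ∨ (cr ∧ s = dk ∧ l = 1 ∧ ¬ a ∧ b ∧ c) ∨
    (cr ∧ s = fl + dk ∧ l = 0 ∧ ¬ c ∧ b) ∨ (cr ∧ s = fl + dk ∧ l = 1 ∧ ¬ b ∧ c)

section
variable {cr a b c : Prop} {s : K4} {l : ZMod 2}
theorem qf_n (h : ¬ cr) : qf cr s l a b c ↔ ¬ b := by simp [qf, h]
theorem qf_fl : qf cr fl l a b c ↔ ¬ b := by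
  simp [qf, show fl ≠ dk by decide, show fl ≠ fl + dk by decide]
theorem qf_d0 (h : cr) : qf cr dk 0 a b c ↔ ¬ b ∧ ¬ c := by
  simp [qf, h, show dk ≠ fl by decide, show dk ≠ fl + dk by decide]
theorem qf_d1 (h : cr) : qf cr dk 1 a b c ↔ ¬ a ∧ b ∧ c := by
  simp [qf, h, show dk ≠ fl by decide, show dk ≠ fl + dk by decide]
theorem qf_r0 (h : cr) : qf cr (fl + dk) 0 a b c ↔ ¬ c ∧ b := by
  simp [qf, h, show fl + dk ≠ fl by decide, show fl + dk ≠ dk by decide]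
theorem qf_r1 (h : cr) : qf cr (fl + dk) 1 a b c ↔ ¬ b ∧ c := by
  simp [qf, h, show fl + dk ≠ fl by decide, show fl + dk ≠ dk by decide]

variable {a' b' c' : Prop}

theorem qf_sep (h : cr) (hs : s ≠ 0) (nb : ¬ b) (hb : b') (n : ¬ (a' ∧ b' ∧ c')) (abc : a ∨ b ∨ c)
    (ma : a → a') (mc : c → c') (hl : (l = 1 ∧ c') ∨ (l = 0 ∧ ¬ c')) :
    ¬ (qf cr s l a b c ↔ qf cr s l a' b' c') := by
  rcases K4.c0 s hs with rfl | rfl | rfl <;> rcases hl with ⟨rfl, k⟩ | ⟨rfl, k⟩ <;>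
    simp only [qf_fl, qf_d0 h, qf_d1 h, qf_r0 h, qf_r1 h] <;> grind

theorem qf_jump (h : cr) (hs : s ≠ 0) (n : ¬ (a' ∧ b' ∧ c')) (abc : a ∨ b ∨ c)
    (ma : a → a') (mb : b → b') (mc : c → c') (j : ¬ (qf cr s l a b c ↔ qf cr s l a' b' c')) :
    (¬ b ∧ b' ∧ (s = fl ∨ (l = 1 ∧ c') ∨ (l = 0 ∧ ¬ c'))) ∨
      (¬ c ∧ c' ∧ s.2 = 1 ∧ ((l + s.1 = 1 ∧ b') ∨ (l + s.1 = 0 ∧ ¬ b'))) := by
  have e1 : dk.2 = 1 := rfl
  have e2 : (fl + dk).2 = 1 := rfl
  have e3 : (0 : ZMod 2) + dk.1 = 0 := rfl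
  have e4 : (1 : ZMod 2) + dk.1 = 1 := rfl
  have e5 : (0 : ZMod 2) + (fl + dk).1 = 1 := rfl
  have e6 : (1 : ZMod 2) + (fl + dk).1 = 0 := rfl
  rcases K4.c0 s hs with rfl | rfl | rfl <;> rcases z2_01 l with rfl | rfl <;>
    simp only [qf_fl, qf_d0 h, qf_d1 h, qf_r0 h, qf_r1 h] at j <;>
    simp only [e1, e2, e3, e4, e5, e6, true_and, true_or, and_true] <;>
    by_cases b <;> by_cases c <;> by_cases b' <;> by_cases c' <;> simp_all

theorem qf_two (h : cr) (hs : s ≠ 0) (k : s ≠ fl) (abc : a ∨ b ∨ c) (abc' : a' ∨ b' ∨ c')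
    (m : ((a → a') ∧ (b → b') ∧ (c → c')) ∨ ((a' → a) ∧ (b' → b) ∧ (c' → c)))
    (h1 : qf cr s l a b c) : ¬ qf cr s (l + 1) a' b' c' := by
  have e1 : (0 : ZMod 2) + 1 = 1 := rfl
  have e2 : (1 : ZMod 2) + 1 = 0 := rfl
  rcases (K4.c0 s hs).resolve_left k with rfl | rfl <;> rcases z2_01 l with rfl | rfl <;>
    simp only [e1, e2, qf_d0 h, qf_d1 h, qf_r0 h, qf_r1 h] at h1 ⊢ <;> grind
end

namespace S2
variable {G : Type} [AddGroup G] {U B : Dat G} {S : S2 U B}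

/-- projection of simplices -/
abbrev pr (S : S2 U B) (σ : Finset U.V) : Finset B.V := σ.image S.d.p

/-- the face `ρ` downstairs has a vertex whose lift to `σ` satisfies `f` -/
def ty (S : S2 U B) (σ : Finset U.V) (f : U.V → Prop) (ρ : Finset B.V) : Prop :=
  ∃ v ∈ σ, S.d.p v ∈ ρ ∧ f v

abbrev ta (S : S2 U B) (σ : Finset U.V) (ρ : Finset B.V) :=
  S.ty σ (fun v => S.L σ v ∧ S.L' σ v) ρ
abbrev tb' (S : S2 U B) (σ : Finset U.V) (ρ : Finset B.V) := S.ty σ (fun v => ¬ S.L σ v) ρ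
abbrev tc (S : S2 U B) (σ : Finset U.V) (ρ : Finset B.V) := S.ty σ (fun v => ¬ S.L' σ v) ρ

section
variable {σ σ' : Finset U.V} {f g : U.V → Prop} {ρ ρ' : Finset B.V}

theorem ty.mono (h : S.ty σ f ρ) (e : ρ ⊆ ρ') : S.ty σ f ρ' := by
  obtain ⟨v, a, b, c⟩ := h; exact ⟨v, a, e b, c⟩

theorem mem_of_pr (hσ : σ ∈ U.K) (e : σ' ⊆ σ) {v : U.V} (hv : v ∈ σ) (h : S.d.p v ∈ S.pr σ') :
    v ∈ σ' := by
  obtain ⟨u, a, b⟩ := mem_image.1 h
  exact S.d.inj σ hσ (e a) hv b ▸ a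

theorem ty_sub (hσ : σ ∈ U.K) (e : σ' ⊆ σ) (e' : ρ ⊆ S.pr σ') (h : ∀ v ∈ σ', (f v ↔ g v)) :
    S.ty σ' f ρ ↔ S.ty σ g ρ :=
  ⟨fun ⟨v, a, b, c⟩ => ⟨v, e a, b, (h v a).1 c⟩, fun ⟨v, a, b, c⟩ =>
    ⟨v, mem_of_pr hσ e a (e' b), b, (h v (mem_of_pr hσ e a (e' b))).2 c⟩⟩

theorem ty_pr (hσ : σ ∈ U.K) (e : σ' ⊆ σ) : S.ty σ f (S.pr σ') ↔ ∃ v ∈ σ', f v :=
  ⟨fun ⟨v, a, b, c⟩ => ⟨v, mem_of_pr hσ e a b, c⟩,
    fun ⟨v, a, c⟩ => ⟨v, e a, mem_image_of_mem _ a, c⟩⟩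

theorem ty_t : S.ty (S.t σ) f ρ ↔ S.ty σ (fun v => f (S.d.τ v)) ρ := by
  simp [ty, S.d.pτ]

theorem ta_t : S.ta (S.t σ) ρ ↔ S.ta σ ρ := by
  rw [ta, ty_t]; simp only [L_t, L'_t, and_comm]
theorem tb_t : S.tb' (S.t σ) ρ ↔ S.tc σ ρ := by rw [tb', ty_t]; simp only [L_t]
theorem tc_t : S.tc (S.t σ) ρ ↔ S.tb' σ ρ := by rw [tc, ty_t]; simp only [L'_t]

theorem ty_any (e : ρ ⊆ S.pr σ) (hne : ρ.Nonempty) : ∃ v ∈ σ, S.d.p v ∈ ρ := by
  obtain ⟨u, hu⟩ := hne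
  obtain ⟨v, a, rfl⟩ := mem_image.1 (e hu)
  exact ⟨v, a, hu⟩

theorem ty_abc (e : ρ ⊆ S.pr σ) (hne : ρ.Nonempty) : S.ta σ ρ ∨ S.tb' σ ρ ∨ S.tc σ ρ := by
  obtain ⟨v, a, b⟩ := ty_any e hne
  by_cases p : S.L σ v <;> [by_cases q : S.L' σ v; skip]
  exacts [Or.inl ⟨v, a, b, p, q⟩, Or.inr (Or.inr ⟨v, a, b, q⟩), Or.inr (Or.inl ⟨v, a, b, p⟩)]

theorem cr_ty (hσ : σ ∈ U.K) (e : σ' ⊆ σ) :
    S.Cr σ' ↔ S.ta σ (S.pr σ') ∧ S.tb' σ (S.pr σ') ∧ S.tc σ (S.pr σ') := by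
  rw [cr_iff hσ e, ta, tb', tc, ty_pr hσ e, ty_pr hσ e, ty_pr hσ e]

theorem arm_ty (hσ : σ ∈ U.K) (e : σ' ⊆ σ) :
    (S.arm σ σ' = 1 ↔ S.tc σ (S.pr σ')) ∧ (S.arm σ σ' = 0 ↔ ¬ S.tc σ (S.pr σ')) := by
  rw [tc, ty_pr hσ e, arm]; split_ifs with h <;> simp only [h] <;> simp

theorem tb_sub (hσ : σ ∈ U.K) (e : σ' ⊆ σ) (m : Mx S.w σ') (e' : ρ ⊆ S.pr σ') :
    S.tb' σ' ρ ↔ S.tb' σ ρ :=
  ty_sub hσ e e' fun _ h => not_congr (S.ori.lw_sub hσ e m h)

theorem tb_self (hσ : σ ∈ U.K) (e : σ' ⊆ σ) (m : Mx S.w σ') : S.tb' σ (S.pr σ') :=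
  (ty_pr hσ e).2 ((S.ori.mx_iff hσ e).1 m).2

theorem mx_of (hσ : σ ∈ U.K) (e : σ' ⊆ σ) (e' : ρ ⊆ S.pr σ') (hne : ρ.Nonempty)
    (nb : ¬ S.tb' σ ρ) (b : S.tb' σ (S.pr σ')) : Mx S.w σ' := by
  obtain ⟨v, a, c⟩ := ty_any (e'.trans (image_subset_image e)) hne
  exact (S.ori.mx_iff hσ e).2 ⟨⟨v, mem_of_pr hσ e a (e' c), by_contra fun q => nb ⟨v, a, c, q⟩⟩,
    (ty_pr hσ e).1 b⟩

end

theorem lifts {x : S.P} {σ : Finset U.V} (hσ : σ ∈ U.K) (e : S.pr x.b = S.pr σ) :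
    x.b = σ ∨ x.b = S.t σ := by
  obtain ⟨a, ha, hE⟩ := x.mtE
  obtain ⟨b, hb, eb⟩ := mem_image.1 (e ▸ mem_image_of_mem S.d.p ha : S.d.p a ∈ S.pr σ)
  rcases S.d.fib a hE b (S.hU.cxK.down σ hσ _ (singleton_subset_iff.2 hb) (singleton_nonempty b))
    eb with rfl | rfl
  · exact Or.inl (S.d.uniq b hE _ x.K σ hσ ha hb e)
  · refine Or.inr (S.d.uniq a hE _ x.K _ (S.d.τK σ hσ) ha ?_ (e.trans (pt σ).symm))
    have := mem_image_of_mem S.d.τ hb
    rwa [S.d.ττ] at this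

theorem exists_lift (x : S.P) {s : Finset B.V} (hs : s ∈ B.K) (e : S.pr x.b ⊆ s) :
    ∃ z : S.P, S.pr z.b = s ∧ le x z := by
  obtain ⟨a, ha, hE⟩ := x.mtE
  obtain ⟨σ, hσ, aσ, rfl⟩ := S.d.lift a hE s hs (e (mem_image_of_mem _ ha))
  have m : a ∈ σ.filter fun v => S.d.p v ∈ S.pr x.b := mem_filter.2 ⟨aσ, mem_image_of_mem _ ha⟩
  have : x.b = σ.filter fun v => S.d.p v ∈ S.pr x.b :=
    S.d.uniq a hE _ x.K _ (S.hU.cxK.down σ hσ _ (filter_subset _ _) ⟨a, m⟩) ha m (by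
      ext u
      simp only [mem_image, mem_filter]
      exact ⟨fun ⟨v, p, q⟩ => by
        obtain ⟨v', p', q'⟩ := mem_image.1 (e (mem_image_of_mem _ p))
        exact ⟨v', ⟨p', v, p, q'.symm⟩, q'.trans q⟩, fun ⟨v, ⟨_, v', p, q⟩, r⟩ => ⟨v', p, q.trans r⟩⟩)
  obtain ⟨z, rfl, h⟩ := exists_up x hσ (this ▸ filter_subset _ _)
  exact ⟨z, rfl, h⟩

variable {s : S.P → K4}

/-- `ρ` is on the far side of the sheet through `x` -/
def q (s : S.P → K4) (x : S.P) (ρ : Finset B.V) : Prop :=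
  qf (S.Cr x.b) (s x) x.l (S.ta x.b ρ) (S.tb' x.b ρ) (S.tc x.b ρ)

theorem pr_act (u : K4) {x : S.P} (c : S.Cr x.b) : S.pr (act u x).b = S.pr x.b := by
  rw [act_b u c]; exact tb_p _ _

theorem q_act (hs : S.cut.St s) {x : S.P} (c : S.Cr x.b) (ρ : Finset B.V) :
    q s (act (s x) x) ρ ↔ q s x ρ := by
  have e : s (act (s x) x) = s x := hs.inv _ x c
  have c' := c.t
  unfold q
  rw [e, act_b _ c, act_l _ c]
  rcases K4.c0 _ (hs.ne x c) with h | h | h <;> rw [h]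
  · rw [qf_fl, qf_fl]; rfl
  · change qf (S.Cr (S.t x.b)) dk (x.l + 0) (S.ta (S.t x.b) ρ) (S.tb' (S.t x.b) ρ)
      (S.tc (S.t x.b) ρ) ↔ _
    rw [ta_t, tb_t, tc_t, add_zero]
    rcases z2_01 x.l with l | l <;> rw [l]
    · rw [qf_d0 c, qf_d0 c', and_comm]
    · rw [qf_d1 c, qf_d1 c', and_comm (a := S.tc x.b ρ)]
  · change qf (S.Cr (S.t x.b)) (fl + dk) (x.l + 1) (S.ta (S.t x.b) ρ) (S.tb' (S.t x.b) ρ)
      (S.tc (S.t x.b) ρ) ↔ _
    rw [ta_t, tb_t, tc_t]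
    rcases z2_01 x.l with l | l <;> rw [l]
    · rw [qf_r0 c, zero_add, qf_r1 c']
    · rw [qf_r1 c, z2_self, qf_r0 c']

theorem q_le (hs : S.cut.St s) {x y : S.P} (c : S.Cr x.b) (h : le x y) {ρ : Finset B.V}
    (e : ρ ⊆ S.pr x.b) : q s x ρ ↔ q s y ρ := by
  have a := fun v hv => S.ori.lw_sub y.K h.1 x.mx (x := v) hv
  have b := fun v hv => S.ori'.lw_sub y.K h.1 (c.mx' x.K) (x := v) hv
  unfold q
  rw [hs.loc x c y h, ((le_cr c).1 h).2, iff_true_intro c, iff_true_intro (c.mono h.1),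
    ta, tb', tc, ty_sub y.K h.1 e fun v hv => and_congr (a v hv) (b v hv),
    ty_sub y.K h.1 e fun v hv => not_congr (a v hv),
    ty_sub y.K h.1 e fun v hv => not_congr (b v hv)]

theorem not_q_cr {y : S.P} {σ : Finset U.V} (e : σ ⊆ y.b) (c : S.Cr σ) :
    ¬ q s y (S.pr σ) := by
  obtain ⟨h1, h2, h3⟩ := (cr_ty y.K e).1 c
  simp [q, qf, h1, h2, h3]

theorem not_q_self (y : S.P) : ¬ q s y (S.pr y.b) := by
  by_cases c : S.Cr y.b
  · exact not_q_cr subset_rfl c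
  · rw [q, qf_n c, not_not]; exact tb_self y.K subset_rfl y.mx

/-- a sheet below `y` is seen by the colouring of `y` -/
theorem sep_of_le (hs : S.cut.St s) {x y : S.P} (h : le x y) {ρ : Finset B.V}
    (e : ρ ⊆ S.pr x.b) (hne : ρ.Nonempty) (hq : q s x ρ) : ¬ (q s y ρ ↔ q s y (S.pr x.b)) := by
  by_cases c : S.Cr x.b
  · exact fun k => not_q_cr h.1 c (k.1 ((q_le hs c h e).1 hq))
  rw [q, qf_n c, tb_sub y.K h.1 x.mx e] at hq
  have b' := tb_self y.K h.1 x.mx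
  unfold q
  by_cases c' : S.Cr y.b
  · have l := h.2 c'
    rw [side_n c] at l
    obtain ⟨a1, a0⟩ := arm_ty (S := S) y.K h.1
    rw [l] at a1 a0
    exact qf_sep c' (hs.ne y c') hq b' ((cr_ty y.K h.1).not.1 c)
      (ty_abc (e.trans (image_subset_image h.1)) hne) (fun k => k.mono e) (fun k => k.mono e)
      ((z2_01 y.l).symm.imp (fun k => ⟨k, a1.1 k⟩) fun k => ⟨k, a0.1 k⟩)
  · rw [qf_n c', qf_n c']; exact fun k => k.1 hq b'

theorem sheet_u {σ σ' : Finset U.V} (hσ : σ ∈ U.K) (e : σ' ⊆ σ) (n : ¬ S.Cr σ') {ρ : Finset B.V}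
    (e' : ρ ⊆ S.pr σ') (hne : ρ.Nonempty) (nb : ¬ S.tb' σ ρ) (b : S.tb' σ (S.pr σ')) :
    ∃ x : S.P, x.b = σ' ∧ q s x ρ ∧ ∀ z : S.P, z.b = σ → (S.Cr σ → S.arm σ σ' = z.l) → le x z := by
  have m := mx_of hσ e e' hne nb b
  let x : S.P := ⟨(σ', 0), ⟨S.hU.cxK.down σ hσ _ e (hne.mono e').of_image, m⟩, fun _ => rfl⟩
  refine ⟨x, rfl, (qf_n n).2 ((tb_sub hσ e m e').not.2 nb), ?_⟩
  rintro z rfl h
  exact ⟨e, fun c => (side_n n).trans (h c)⟩

theorem sheet_v {y : S.P} (c : S.Cr y.b) {σ' : Finset U.V} (e : σ' ⊆ y.b) (n : ¬ S.Cr σ')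
    {ρ : Finset B.V} (e' : ρ ⊆ S.pr σ') (hne : ρ.Nonempty) (nc : ¬ S.tc y.b ρ)
    (c' : S.tc y.b (S.pr σ')) {u : K4} (hu : u.2 = 1)
    (hl : (y.l + u.1 = 1 ∧ S.tb' y.b (S.pr σ')) ∨ (y.l + u.1 = 0 ∧ ¬ S.tb' y.b (S.pr σ'))) :
    ∃ x : S.P, S.pr x.b = S.pr σ' ∧ q s x ρ ∧ le x (act u y) := by
  have e2 : S.t σ' ⊆ S.t y.b := image_subset_image e
  have pp : S.pr (S.t σ') = S.pr σ' := pt σ'
  obtain ⟨x, a, b, d⟩ := sheet_u (s := s) (S.d.τK _ y.K) e2 (fun k => n (tt σ' ▸ k.t))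
    (pp ▸ e') hne (tb_t.not.2 nc) (tb_t.2 (pp ▸ c'))
  refine ⟨x, a ▸ pp, b, d _ (by rw [act_b _ c, hu]; rfl) fun _ => ?_⟩
  obtain ⟨a1, a0⟩ := arm_ty (S := S) (S.d.τK _ y.K) e2
  rw [tc_t, pp] at a1 a0
  rw [act_l _ c]
  rcases hl with k | k
  exacts [(a1.2 k.2).trans k.1.symm, (a0.2 k.2).trans k.1.symm]

/-- a jump of the colouring of `y` comes from a sheet below `y` -/
theorem exists_sheet (hs : S.cut.St s) {y : S.P} {σ' : Finset U.V} (e : σ' ⊆ y.b)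
    {ρ : Finset B.V} (e' : ρ ⊆ S.pr σ') (hne : ρ.Nonempty)
    (h : ¬ (q s y ρ ↔ q s y (S.pr σ'))) :
    ∃ x : S.P, S.pr x.b = S.pr σ' ∧ q s x ρ ∧ S.cut.ls s x y := by
  have K' := S.hU.cxK.down _ y.K _ e (hne.mono e').of_image
  by_cases c' : S.Cr σ'
  · let x : S.P := ⟨(σ', y.l), ⟨K', c'.mx K'⟩, fun k => (k c').elim⟩
    have l : le x y := (le_cr c').2 ⟨e, rfl⟩
    exact ⟨x, rfl, (q_le hs (x := x) c' l e').2
      (by_contra fun k => h (iff_of_false k (not_q_cr e c'))), Or.inl l⟩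
  unfold q at h
  by_cases c : S.Cr y.b
  swap
  · rw [qf_n c, qf_n c] at h
    have b : S.tb' y.b (S.pr σ') := by_contra fun k => h (iff_of_true (fun t => k (t.mono e')) k)
    obtain ⟨x, p, r, t⟩ := sheet_u (s := s) y.K e c' e' hne
      (fun k => h (iff_of_false (not_not.2 k) (not_not.2 b))) b
    exact ⟨x, by rw [p], r, Or.inl (t y rfl fun k => (c k).elim)⟩
  obtain ⟨a1, a0⟩ := arm_ty (S := S) y.K e
  rcases qf_jump c (hs.ne y c) ((cr_ty y.K e).not.1 c')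
    (ty_abc (e'.trans (image_subset_image e)) hne) (fun k => k.mono e') (fun k => k.mono e')
    (fun k => k.mono e') h with ⟨a, b, d⟩ | ⟨a, b, d, f⟩
  · obtain ⟨x, p, r, t⟩ := sheet_u (s := s) y.K e c' e' hne a b
    refine ⟨x, by rw [p], r, ?_⟩
    by_cases l : S.arm y.b σ' = y.l
    · exact Or.inl (t y rfl fun _ => l)
    · have k : s y = fl := d.resolve_right fun d => d.elim
        (fun d => l ((a1.2 d.2).trans d.1.symm)) fun d => l ((a0.2 d.2).trans d.1.symm)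
      refine Or.inr ⟨c, ?_⟩
      rw [k]
      refine t (act fl y) (act_b fl c) fun _ => ?_
      rw [act_l _ c]
      revert l; generalize S.arm y.b σ' = a; generalize y.l = b; revert a b; decide
  · obtain ⟨x, p, r, t⟩ := sheet_v (s := s) c e c' e' hne a b d f
    exact ⟨x, p, r, Or.inr ⟨c, t⟩⟩

theorem not_q_fl (hs : S.cut.St s) {x : S.P} (c : S.Cr x.b) (k : s x ≠ fl) {ρ ρ' : Finset B.V}
    (e : ρ ⊆ S.pr x.b) (e' : ρ' ⊆ S.pr x.b) (hne : ρ.Nonempty) (hne' : ρ'.Nonempty)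
    (cmp : ρ ⊆ ρ' ∨ ρ' ⊆ ρ) (h : q s x ρ) : ¬ q s (act fl x) ρ' := by
  intro h'
  have es : s (act fl x) = s x := hs.inv _ x c
  have eb : (act fl x).b = x.b := act_b fl c
  unfold q at h h'
  rw [es, eb, act_l _ c] at h'
  exact qf_two c (hs.ne x c) k (ty_abc e hne) (ty_abc e' hne') (cmp.imp
    (fun u => ⟨fun k => k.mono u, fun k => k.mono u, fun k => k.mono u⟩)
    fun u => ⟨fun k => k.mono u, fun k => k.mono u, fun k => k.mono u⟩) h h'

theorem ac_q (hs : S.cut.St s) (y : S.P) : Ac sub {ρ | ρ ∈ fcs (S.pr y.b) ∧ q s y ρ} := by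
  classical
  have key : ∀ f : U.V → Prop, (∃ v ∈ y.b, f v) →
      (∀ ρ ∈ fcs (S.pr y.b), q s y ρ → S.ty y.b f ρ) →
      (∀ ρ, S.ty y.b f ρ → ¬ S.ty y.b (fun v => ¬ f v) ρ → q s y ρ) →
      Ac sub {ρ | ρ ∈ fcs (S.pr y.b) ∧ q s y ρ} := by
    intro f ⟨v, a, b⟩ h1 h2
    have fs : y.b.filter f ⊆ y.b := filter_subset _ _
    refine ac_faces (W := S.pr (y.b.filter f)) ⟨_, mem_image_of_mem _ (mem_filter.2 ⟨a, b⟩)⟩
      (fun ρ m => ?_) fun ρ m n => ⟨⟨n, m.trans (image_subset_image fs)⟩, h2 ρ ?_ ?_⟩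
    · obtain ⟨u, p, r, t⟩ := h1 ρ m.1 m.2
      exact ⟨_, mem_inter.2 ⟨r, mem_image_of_mem _ (mem_filter.2 ⟨p, t⟩)⟩⟩
    · obtain ⟨u, p, r⟩ := ty_any m n
      exact ⟨u, fs p, r, (mem_filter.1 p).2⟩
    · rintro ⟨u, p, r, t⟩
      exact t (mem_filter.1 (mem_of_pr y.K fs p (m r))).2
  have low : (∀ ρ, q s y ρ ↔ ¬ S.tb' y.b ρ) → Ac sub {ρ | ρ ∈ fcs (S.pr y.b) ∧ q s y ρ} := fun h =>
    key (S.L y.b) ((S.ori.mx_iff y.K subset_rfl).1 y.mx).1 (fun ρ m k => by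
      obtain ⟨u, p, r⟩ := ty_any m.2 m.1
      exact ⟨u, p, r, by_contra fun t => (h ρ).1 k ⟨u, p, r, t⟩⟩) fun ρ _ k => (h ρ).2 k
  by_cases c : S.Cr y.b
  swap
  · exact low fun _ => qf_n c
  obtain ⟨ha, hb, hc⟩ := (cr_iff y.K subset_rfl).1 c
  have n11 := fun v hv => c.no11 y.K (y := v) hv
  rcases K4.c0 _ (hs.ne y c) with k | k | k
  · exact low fun _ => by rw [q, k, qf_fl]
  · rcases z2_01 y.l with l | l
    · refine key _ ha (fun ρ m h => ?_) fun ρ _ h => ?_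
      · rw [q, k, l, qf_d0 c] at h
        exact ((ty_abc m.2 m.1).resolve_right fun t => t.elim h.1 h.2)
      · rw [q, k, l, qf_d0 c]
        exact ⟨fun ⟨v, a, b, d⟩ => h ⟨v, a, b, fun t => d t.1⟩,
          fun ⟨v, a, b, d⟩ => h ⟨v, a, b, fun t => d t.2⟩⟩
    · have fs : y.b.filter (fun v => ¬ (S.L y.b v ∧ S.L' y.b v)) ⊆ y.b := filter_subset _ _
      obtain ⟨u, u1, u2⟩ := hb
      obtain ⟨v, v1, v2⟩ := hc
      refine Ac.of_top (m := S.pr (y.b.filter fun v => ¬ (S.L y.b v ∧ S.L' y.b v)))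
        ⟨⟨⟨_, mem_image_of_mem _ (mem_filter.2 ⟨u1, fun t => u2 t.1⟩)⟩, image_subset_image fs⟩, ?_⟩
        fun ρ m z hz => ?_
      · rw [q, k, l, qf_d1 c, ta, tb', tc, ty_pr y.K fs, ty_pr y.K fs, ty_pr y.K fs]
        exact ⟨fun ⟨z, a, b⟩ => (mem_filter.1 a).2 b, ⟨u, mem_filter.2 ⟨u1, fun t => u2 t.1⟩, u2⟩,
          v, mem_filter.2 ⟨v1, fun t => v2 t.2⟩, v2⟩
      · have h := m.2
        rw [q, k, l, qf_d1 c] at h
        obtain ⟨z, a, rfl⟩ := mem_image.1 (m.1.2 hz)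
        exact mem_image_of_mem _ (mem_filter.2 ⟨a, fun t => h.1 ⟨z, a, hz, t⟩⟩)
  · rcases z2_01 y.l with l | l
    · refine key _ hb (fun ρ _ h => ?_) fun ρ h h' => ?_
      · rw [q, k, l, qf_r0 c] at h; exact h.2
      · rw [q, k, l, qf_r0 c]
        exact ⟨fun ⟨v, a, b, d⟩ => h' ⟨v, a, b, fun t => (n11 v a).elim t d⟩, h⟩
    · refine key _ hc (fun ρ _ h => ?_) fun ρ h h' => ?_
      · rw [q, k, l, qf_r1 c] at h; exact h.2
      · rw [q, k, l, qf_r1 c]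
        exact ⟨fun ⟨v, a, b, d⟩ => h' ⟨v, a, b, fun t => (n11 v a).elim d t⟩, h⟩

end S2

end Crest.Agent.X212.Dsc37
end

-- ▼ part X212/Dsc37/Main
section

/-!
# Descent through one double cover
-/

namespace Crest.Agent.X212.Dsc37

open Finset

namespace S2
variable {G : Type} [AddGroup G] {U B : Dat G} {S : S2 U B} {s : S.P → K4} {D : Set S.P}

/-- a resolved disc -/
structure Fi (s : S.P → K4) (D : Set S.P) : Prop where
  good : S.cut.Good s D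
  fin : ∀ x : S.P, S.Cr x.b → x ∈ D → s x = fl → act dk x ∉ D

theorem ls_pr {x y : S.P} (h : S.cut.ls s x y) : S.pr x.b ⊆ S.pr y.b := by
  rcases h with h | ⟨c, h⟩
  · exact image_subset_image h.1
  · rw [← pr_act (s y) c]; exact image_subset_image h.1

theorem ls_act (hs : S.cut.St s) {x : S.P} (c : S.Cr x.b) : S.cut.ls s x (act (s x) x) := by
  refine Or.inr ⟨act_cr _ c, ?_⟩
  have e : s (act (s x) x) = s x := hs.inv _ x c
  have e' : act (s x) (act (s x) x) = x := Cut.act_act (C := S.cut) _ c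
  change le x (act (s (act (s x) x)) (act (s x) x))
  rw [e, e']; exact le_refl x

theorem sep_of_ls (hs : S.cut.St s) {x y : S.P} (h : S.cut.ls s x y) {ρ : Finset B.V}
    (e : ρ ⊆ S.pr x.b) (hne : ρ.Nonempty) (hq : q s x ρ) : ¬ (q s y ρ ↔ q s y (S.pr x.b)) := by
  rcases h with h | ⟨c, h⟩
  · exact sep_of_le hs h e hne hq
  · rw [← q_act hs c, ← q_act hs c]; exact sep_of_le hs h e hne hq

namespace Fi
variable (h : Fi s D)
include h

theorem act_mem {x : S.P} (c : S.Cr x.b) (hx : x ∈ D) : act (s x) x ∈ D :=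
  (h.good.clo _ _ (ls_act h.good.st c)).1 hx

/-- two sheets over the same simplex with comparable far faces are glued -/
theorem uniq {x x' : S.P} (hx : x ∈ D) (hx' : x' ∈ D) (e : S.pr x'.b = S.pr x.b)
    {ρ ρ' : Finset B.V} (m : ρ ∈ fcs (S.pr x.b)) (m' : ρ' ∈ fcs (S.pr x.b))
    (cmp : ρ ⊆ ρ' ∨ ρ' ⊆ ρ) (a : q s x ρ) (a' : q s x' ρ') :
    x' = x ∨ (S.Cr x.b ∧ x' = act (s x) x) := by
  have hs := h.good.st
  by_cases c : S.Cr x.b
  · obtain ⟨u, rfl⟩ : ∃ u, x' = act u x := by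
      rcases lifts x.K e with k | k
      · exact ⟨(x'.l - x.l, 0), P.ext (by rw [act_b _ c, k]; rfl) (by rw [act_l _ c]; ring)⟩
      · exact ⟨(x'.l - x.l, 1), P.ext (by rw [act_b _ c, k]; rfl) (by rw [act_l _ c]; ring)⟩
    have es : ∀ u, s (act u x) = s x := fun u => hs.inv u x c
    have ad : ∀ u v, act (u + v) x = act u (act v x) := fun u v => S.cut.act_add u v x c
    by_cases k : s x = fl
    · rcases K4.four' fl.swap u (by decide) (by decide) with rfl | rfl | rfl | rfl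
      · exact Or.inl (S.cut.act_zero x)
      · exact Or.inr ⟨c, by rw [k]⟩
      · exact (h.fin x c hx k hx').elim
      · have := h.act_mem (act_cr _ c) hx'
        rw [es, k, ← ad] at this
        exact (h.fin x c hx k this).elim
    · rcases K4.four (hs.ne x c) k u with rfl | rfl | rfl | rfl
      · exact Or.inl (S.cut.act_zero x)
      · exact (not_q_fl hs c k m.2 m'.2 m.1 m'.1 cmp a a').elim
      · exact Or.inr ⟨c, rfl⟩
      · rw [ad, ← es fl, q_act hs (act_cr _ c)] at a'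
        exact (not_q_fl hs c k m.2 m'.2 m.1 m'.1 cmp a a').elim
  · rcases lifts x.K e with k | k
    · exact Or.inl (P.ext k (by rw [x.l0 c, x'.l0 (k ▸ c)]))
    · have c' : ¬ S.Cr x'.b := fun t => c (by have := t.t; rwa [k, tt] at this)
      rw [q, qf_n c] at a
      rw [q, qf_n c', k, tb_t] at a'
      obtain ⟨v, p, r, r'⟩ : ∃ v ∈ x.b, S.d.p v ∈ ρ ∧ S.d.p v ∈ ρ' := by
        rcases cmp with t | t
        · obtain ⟨v, p, r⟩ := ty_any m.2 m.1; exact ⟨v, p, r, t r⟩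
        · obtain ⟨v, p, r⟩ := ty_any m'.2 m'.1; exact ⟨v, p, t r, r⟩
      exact (c ⟨v, p, by_contra fun t => a ⟨v, p, r, t⟩, by_contra fun t => a' ⟨v, p, r', t⟩⟩).elim

theorem uniq_ls {x x' : S.P} (hx : x ∈ D) (hx' : x' ∈ D) (e : S.pr x'.b = S.pr x.b)
    {ρ ρ' : Finset B.V} (m : ρ ∈ fcs (S.pr x.b)) (m' : ρ' ∈ fcs (S.pr x.b))
    (cmp : ρ ⊆ ρ' ∨ ρ' ⊆ ρ) (a : q s x ρ) (a' : q s x' ρ') :
    S.cut.ls s x x' ∧ ∀ π, (q s x' π ↔ q s x π) := by
  rcases h.uniq hx hx' e m m' cmp a a' with rfl | ⟨c, rfl⟩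
  · exact ⟨Or.inl (le_refl _), fun _ => Iff.rfl⟩
  · exact ⟨ls_act h.good.st c, q_act h.good.st c⟩

end Fi

/-- the colouring of the faces of `σ` -/
def chi (s : S.P → K4) (D : Set S.P) (σ ρ : Finset B.V) : Prop :=
  ∃ x ∈ D, S.pr x.b = σ ∧ q s x ρ

theorem not_chi (σ : Finset B.V) : ¬ chi s D σ σ := fun ⟨x, _, e, k⟩ => not_q_self x (e ▸ k)

open Classical in
/-- the resolved disc downstairs -/
noncomputable def eta (s : S.P → K4) (D : Set S.P) (ρ ρ' : Finset B.V) : ZMod 2 :=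
  if (chi s D (ρ ∪ ρ') ρ ↔ chi s D (ρ ∪ ρ') ρ') then 0 else 1

theorem face_pr (y : S.P) {σ : Finset B.V} (e : σ ⊆ S.pr y.b) : ∃ σ' ⊆ y.b, S.pr σ' = σ := by
  obtain ⟨t, a, b⟩ := subset_image_iff.1 e
  exact ⟨t, a, b⟩

namespace Fi
variable (h : Fi s D)
include h

theorem sheet {y : S.P} (hy : y ∈ D) {σ ρ : Finset B.V} (e : σ ⊆ S.pr y.b) (e' : ρ ⊆ σ)
    (hne : ρ.Nonempty) (j : ¬ (q s y ρ ↔ q s y σ)) :
    ∃ x ∈ D, S.pr x.b = σ ∧ q s x ρ ∧ S.cut.ls s x y := by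
  obtain ⟨σ', a, rfl⟩ := face_pr y e
  obtain ⟨x, p, r, t⟩ := exists_sheet h.good.st a e' hne j
  exact ⟨x, (h.good.clo x y t).2 hy, p, r, t⟩

theorem chi_key {σ ρ' ρ : Finset B.V} (hσ : σ ∈ B.K) (e : ρ' ⊆ σ) (e' : ρ ⊆ ρ')
    (hne : ρ.Nonempty) : chi s D ρ' ρ ↔ ¬ (chi s D σ ρ ↔ chi s D σ ρ') := by
  have one : ∀ y ∈ D, S.pr y.b = σ → (q s y ρ ∨ q s y ρ') →
      ((chi s D σ ρ ↔ q s y ρ) ∧ (chi s D σ ρ' ↔ q s y ρ')) := by
    rintro y hy rfl a
    have m : ρ ∈ fcs (S.pr y.b) := ⟨hne, e'.trans e⟩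
    have m' : ρ' ∈ fcs (S.pr y.b) := ⟨hne.mono e', e⟩
    refine ⟨⟨fun ⟨z, hz, p, r⟩ => ?_, fun k => ⟨y, hy, rfl, k⟩⟩,
      ⟨fun ⟨z, hz, p, r⟩ => ?_, fun k => ⟨y, hy, rfl, k⟩⟩⟩
    · exact a.elim id fun a => ((h.uniq_ls hy hz p m' m (Or.inr e') a r).2 ρ).1 r
    · exact a.elim (fun a => ((h.uniq_ls hy hz p m m' (Or.inl e') a r).2 ρ').1 r) id
  constructor
  · rintro ⟨x, hx, rfl, k⟩
    obtain ⟨y, p, l⟩ := exists_lift x hσ e
    have j := sep_of_le h.good.st l e' hne k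
    obtain ⟨a, b⟩ := one y ((h.good.clo x y (Or.inl l)).1 hx) p
      (by_contra fun t => j (iff_of_false (fun u => t (Or.inl u)) fun u => t (Or.inr u)))
    rwa [a, b]
  · intro j
    obtain ⟨y, hy, p, a⟩ : ∃ y ∈ D, S.pr y.b = σ ∧ (q s y ρ ∨ q s y ρ') := by
      by_contra t
      exact j (iff_of_false (fun ⟨y, a, b, c⟩ => t ⟨y, a, b, Or.inl c⟩)
        fun ⟨y, a, b, c⟩ => t ⟨y, a, b, Or.inr c⟩)
    obtain ⟨b, c⟩ := one y hy p a
    rw [b, c] at j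
    obtain ⟨x, hx, u, v, -⟩ := h.sheet hy (p ▸ e) e' hne j
    exact ⟨x, hx, u, v⟩

theorem eta_ne {σ ρ ρ' : Finset B.V} (hσ : σ ∈ B.K) (m : ρ ∈ fcs σ) (m' : ρ' ∈ fcs σ)
    (cmp : ρ ⊆ ρ' ∨ ρ' ⊆ ρ) : eta s D ρ ρ' ≠ 0 ↔ ¬ (chi s D σ ρ ↔ chi s D σ ρ') := by
  have k : eta s D ρ ρ' ≠ 0 ↔ ¬ (chi s D (ρ ∪ ρ') ρ ↔ chi s D (ρ ∪ ρ') ρ') := by
    unfold eta; split_ifs with t <;> simp [t]
  rw [k]
  rcases cmp with t | t
  · rw [union_eq_right.2 t, ← h.chi_key hσ m'.2 t m.1, iff_false_intro (not_chi ρ')]; simp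
  · rw [union_eq_left.2 t, Iff.comm (a := chi s D σ ρ), ← h.chi_key hσ m.2 t m'.1,
      iff_false_intro (not_chi ρ)]; simp

theorem eta_top {L : Set (Finset B.V)} (hL : L ⊆ B.K) {r : Finset (Finset B.V)} (hr : r ∈ sd L)
    {x y : Finset B.V} (hx : x ∈ r) (hy : y ∈ r) :
    eta s D x y ≠ 0 ↔ ¬ (chi s D (top r) x ↔ chi s D (top r) y) :=
  h.eta_ne (hL (top_mem' hr)) ⟨S.hB.cxK.ne _ (hL (hr.2.1 x hx)), sub_top hx⟩
    ⟨S.hB.cxK.ne _ (hL (hr.2.1 y hy)), sub_top hy⟩ (hr.2.2 x hx y hy)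

theorem mx_eta {L : Set (Finset B.V)} (hL : L ⊆ B.K) {r : Finset (Finset B.V)} (hr : r ∈ sd L) :
    Mx (eta s D) r ↔ ∃ x ∈ D, S.pr x.b = top r ∧ ∃ ρ ∈ r, q s x ρ := by
  constructor
  · rintro ⟨x, hx, y, hy, k⟩
    rw [h.eta_top hL hr hx hy] at k
    by_contra t
    exact k (iff_of_false (fun ⟨z, a, b, c⟩ => t ⟨z, a, b, x, hx, c⟩)
      fun ⟨z, a, b, c⟩ => t ⟨z, a, b, y, hy, c⟩)
  · rintro ⟨x, a, b, ρ, c, d⟩
    exact ⟨ρ, c, _, top_mem hr, (h.eta_top hL hr c (top_mem hr)).2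
      fun k => not_chi _ (k.1 ⟨x, a, b, d⟩)⟩

theorem exists_pi : ∃ π : Finset (Finset B.V) → S.P, ∀ r ∈ Sf (sd B.K) (eta s D),
    π r ∈ D ∧ S.pr (π r).b = top r ∧ ∃ ρ ∈ r, q s (π r) ρ := by
  obtain ⟨x0, -⟩ := h.good.conn.1
  have : ∀ r, ∃ x : S.P, r ∈ Sf (sd B.K) (eta s D) →
      x ∈ D ∧ S.pr x.b = top r ∧ ∃ ρ ∈ r, q s x ρ := fun r => by
    by_cases m : r ∈ Sf (sd B.K) (eta s D)
    · obtain ⟨x, k⟩ := (h.mx_eta subset_rfl m.1).1 m.2
      exact ⟨x, fun _ => k⟩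
    · exact ⟨x0, fun k => (m k).elim⟩
  choose π hπ using this
  exact ⟨π, hπ⟩

variable {π : Finset (Finset B.V) → S.P} (hπ : ∀ r ∈ Sf (sd B.K) (eta s D),
    π r ∈ D ∧ S.pr (π r).b = top r ∧ ∃ ρ ∈ r, q s (π r) ρ)
include hπ

theorem pi_ls {r : Finset (Finset B.V)} (hr : r ∈ Sf (sd B.K) (eta s D)) {x : S.P} (hx : x ∈ D)
    (e : S.pr x.b = top r) {ρ : Finset B.V} (m : ρ ∈ r) (a : q s x ρ) :
    S.cut.ls s (π r) x ∧ S.cut.ls s x (π r) := by
  obtain ⟨p1, p2, ρ', p3, p4⟩ := hπ r hr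
  have f : ∀ t ∈ r, t ∈ fcs (top r) := fun t k => ⟨S.hB.cxK.ne _ (hr.1.2.1 t k), sub_top k⟩
  exact ⟨(h.uniq_ls p1 hx (e.trans p2.symm) (p2 ▸ f _ p3) (p2 ▸ f _ m) (hr.1.2.2 _ p3 _ m) p4 a).1,
    (h.uniq_ls hx p1 (p2.trans e.symm) (e ▸ f _ m) (e ▸ f _ p3) (hr.1.2.2 _ m _ p3) a p4).1⟩

theorem pi_mono {r r' : Finset (Finset B.V)} (hr : r ∈ Sf (sd B.K) (eta s D))
    (hr' : r' ∈ Sf (sd B.K) (eta s D)) (e : r ⊆ r') : S.cut.ls s (π r) (π r') := by
  obtain ⟨p1, p2, ρ, p3, p4⟩ := hπ r hr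
  obtain ⟨y, p, l⟩ := exists_lift (π r) (top_mem' hr'.1) (p2 ▸ top_mono e)
  have hy := (h.good.clo _ y (Or.inl l)).1 p1
  have j := sep_of_le h.good.st l (p2 ▸ sub_top p3) (S.hB.cxK.ne _ (hr.1.2.1 _ p3)) p4
  rw [p2] at j
  refine Cut.ls_trans h.good.st (Or.inl l) ?_
  by_cases a : q s y ρ
  · exact (h.pi_ls hπ hr' hy p (e p3) a).2
  · exact (h.pi_ls hπ hr' hy p (e (top_mem hr.1))
      (by_contra fun t => j (iff_of_false a t))).2

theorem ac_fb {L : Set (Finset B.V)} (hc : Cx L) (hL : L ⊆ B.K) {y : S.P} (hy : y ∈ D)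
    (yL : S.pr y.b ∈ L) : Ac sub (Fb (S.cut.ls s) (Sf (sd L) (eta s D)) π y) := by
  have sdL : ∀ r ∈ sd L, r ∈ sd B.K := fun r k => ⟨k.1, fun σ a => hL (k.2.1 σ a), k.2.2⟩
  have e : Fb (S.cut.ls s) (Sf (sd L) (eta s D)) π y =
      MxCh (fcs (S.pr y.b)) {ρ | ρ ∈ fcs (S.pr y.b) ∧ q s y ρ} := by
    ext r
    constructor
    · rintro ⟨⟨a, b⟩, c⟩
      obtain ⟨p1, p2, ρ, p3, p4⟩ := hπ r ⟨sdL r a, b⟩
      have a' := (mem_sd_fcs hc yL).2 ⟨a, p2 ▸ ls_pr c⟩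
      have j := sep_of_ls h.good.st c (p2 ▸ sub_top p3) (hc.ne _ (a.2.1 _ p3)) p4
      rw [p2] at j
      have t := top_mem a
      by_cases k : q s y ρ
      · exact ⟨a', ⟨ρ, p3, a'.2.1 _ p3, k⟩, _, t, fun u => j (iff_of_true k u.2)⟩
      · exact ⟨a', ⟨_, t, a'.2.1 _ t, by_contra fun u => j (iff_of_false k u)⟩, ρ, p3,
          fun u => k u.2⟩
    · rintro ⟨a, ⟨ρ1, b1, c1⟩, ρ2, b2, c2⟩
      obtain ⟨a1, a2⟩ := (mem_sd_fcs hc yL).1 a
      obtain ⟨ρ, b, j⟩ : ∃ ρ ∈ r, ¬ (q s y ρ ↔ q s y (top r)) := by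
        by_cases k : q s y (top r)
        · exact ⟨ρ2, b2, fun u => c2 ⟨a.2.1 _ b2, u.2 k⟩⟩
        · exact ⟨ρ1, b1, fun u => k (u.1 c1.2)⟩
      obtain ⟨x, hx, u, v, t⟩ := h.sheet hy a2 (sub_top b) (a.2.1 _ b).1 j
      have m : Mx (eta s D) r := (h.mx_eta hL a1).2 ⟨x, hx, u, ρ, b, v⟩
      exact ⟨⟨a1, m⟩, Cut.ls_trans h.good.st (h.pi_ls hπ ⟨sdL r a1, m⟩ hx u b v).1 t⟩
  rw [e]
  exact ac_mxCh (σ := S.pr y.b) ⟨hc.ne _ yL, subset_rfl⟩ (fun _ k => k.2) (fun _ k => k.1)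
    (fun k => not_q_self y k.2) (ac_q h.good.st y)

omit hπ in
theorem disc : B.sub1.Disc (eta s D) := by
  obtain ⟨π, hπ⟩ := h.exists_pi
  have rf : ∀ {Y : Set S.P}, ∀ y ∈ Y, S.cut.ls s y y := fun y _ => Or.inl (le_refl y)
  have tr : ∀ {Y : Set S.P}, ∀ x ∈ Y, ∀ y ∈ Y, ∀ z ∈ Y, S.cut.ls s x y → S.cut.ls s y z →
      S.cut.ls s x z := fun _ _ _ _ _ _ => Cut.ls_trans h.good.st
  have a := Ac.quillen (r := sub) rf tr (fun r k => (hπ r k).1)
    (fun r k r' k' e => h.pi_mono hπ k k' e)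
    (fun y hy => h.ac_fb hπ S.hB.cxK subset_rfl hy (S.d.pK _ y.K)) ⟨h.good.conn, h.good.h0⟩
  have sF : ∀ r ∈ Sf (sd B.F) (eta s D), r ∈ Sf (sd B.K) (eta s D) := fun r k =>
    ⟨⟨k.1.1, fun σ a => S.hB.FK (k.1.2.1 σ a), k.1.2.2⟩, k.2⟩
  have mp : ∀ r ∈ Sf (sd B.F) (eta s D), π r ∈ D ∩ S.cut.bd := fun r k =>
    ⟨(hπ r (sF r k)).1, P.pF.2 (by
      have := top_mem' k.1
      rwa [← (hπ r (sF r k)).2.1] at this)⟩
  have fB : ∀ y ∈ D ∩ S.cut.bd, Conn sub (Fb (S.cut.ls s) (Sf (sd B.F) (eta s D)) π y) :=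
    fun y hy => (h.ac_fb hπ S.hB.cxF S.hB.FK hy.1 (P.pF.1 hy.2)).1
  refine ⟨fun r hr x hx y hy z hz => ?_, fun r hr x hx y hy k => ?_, a.1, a.2,
    Conn.quillen rf tr mp fB h.good.connB, fun k => h.good.ess (Cob.quillen tr mp
      (fun r k r' k' e => h.pi_mono hπ (sF r k) (sF r' k') e) fB (fun x hx y hy z hz u v =>
        S.hB.coc _ ⟨P.pF.1 hx.2, x.pA⟩ _ ⟨P.pF.1 hy.2, y.pA⟩ _ ⟨P.pF.1 hz.2, z.pA⟩ (ls_pr u)
          (ls_pr v)) (k.congr fun r a r' b _ => ?_))⟩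
  · have e1 := h.eta_top subset_rfl hr hx hz
    have e2 := h.eta_top subset_rfl hr hx hy
    have e3 := h.eta_top subset_rfl hr hy hz
    have k : (eta s D x z ≠ 0 ↔ ¬ (eta s D x y ≠ 0 ↔ eta s D y z ≠ 0)) := by
      rw [e1, e2, e3]
      generalize chi s D (top r) x = a, chi s D (top r) y = b, chi s D (top r) z = c
      by_cases a <;> by_cases b <;> by_cases c <;> simp [*]
    revert k; generalize eta s D x z = a; generalize eta s D x y = b; generalize eta s D y z = c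
    revert a b c; decide
  · have key : ∀ x y : Finset B.V, x ∈ B.K → y ∈ B.K → x ⊆ y →
        ¬ (chi s D y x ↔ chi s D y y) → Mt B.A y := fun x y _ _ _ k => by
      obtain ⟨z, -, rfl, -⟩ : chi s D y x := by_contra fun t => k (iff_of_false t (not_chi y))
      exact z.pA
    have xK := hr.2.1 x hx
    have yK := hr.2.1 y hy
    have nx := S.hB.cxK.ne x xK
    have ny := S.hB.cxK.ne y yK
    rcases hr.2.2 x hx y hy with e | e
    · exact Or.inr ⟨yK, key x y xK yK e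
        ((h.eta_ne yK ⟨nx, e⟩ ⟨ny, subset_rfl⟩ (Or.inl e)).1 k)⟩
    · exact Or.inl ⟨xK, key y x yK xK e fun t =>
        (h.eta_ne xK ⟨nx, subset_rfl⟩ ⟨ny, e⟩ (Or.inr e)).1 k t.symm⟩
  · change B.g (top r) (top r') = B.g (S.pr (π r).b) (S.pr (π r').b)
    rw [(hπ r (sF r a)).2.1, (hπ r' (sF r' b)).2.1]

end Fi

end S2

/-- **DESCENT** -/
theorem desc : DescStmt := by
  intro G _ U B hU hB d h
  obtain ⟨d', w, o, h1, h2, h3⟩ := step1 hU hB d h
  let S : S2 U.sub1 B.sub1 :=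
    ⟨Lad50.okSubStmt G U hU, Lad50.okSubStmt G B hB, d', w, o, h1, h2, h3⟩
  obtain ⟨s, D, a, b⟩ := (S2.good_init (S := S)).final
  exact ⟨_, S2.Fi.disc ⟨a, b⟩⟩

end Crest.Agent.X212.Dsc37
end

-- ▼ part X212/Dsc4/St
section

/-!
# X212 / T layer, descent step: the Props of the split (helper4)
-/

set_option autoImplicit false

open Set Metric Topology

namespace Crest.Agent.X212.Dsc4

open Crest.Agent.R096.Ce_537
open Crest.Agent.R096.Pl (S1)
open Crest.Agent.X212.Lev33 (Coc Prim)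

section

variable {E : Type} [NormedAddCommGroup E] [NormedSpace ℝ E]

/-- the double set of the level `0` -/
def Dbl (U : Set E) (l : E → ℝ) (t : E → E) : Set E :=
  {x | x ∈ U ∧ t x ∈ U ∧ l x = 0 ∧ l (t x) = 0}

/-- a chart whose first two coordinates are `l` and `l ∘ t` -/
def Ch2 (W dW U : Set E) (l : E → ℝ) (t : E → E) (x : E) : Prop :=
  ∃ k : Ch W dW, x ∈ k.O ∧ ∀ y ∈ k.O, y ∈ U ∧ t y ∈ U ∧ k.e.f y 0 = l y ∧ k.e.f y 1 = l (t y)

/-- transversality of the level `0` and its image -/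
def Tr (W dW U : Set E) (l : E → ℝ) (t : E → E) : Prop := ∀ x ∈ Dbl U l t, Ch2 W dW U l t x

/-- `C` is a disjoint union of at most `n` continua -/
def Cnt (C : Set E) (n : ℕ) : Prop :=
  ∃ 𝒞 : Finset (Set E), 𝒞.card ≤ n ∧ (∀ c ∈ 𝒞, IsCompact c ∧ IsPreconnected c) ∧
    (∀ c ∈ 𝒞, ∀ c' ∈ 𝒞, c ≠ c' → Disjoint c c') ∧ ⋃₀ (𝒞 : Set (Set E)) = C

end

/-- **(ONE)** compact connected PL one-manifolds with boundary `c ∩ B` -/
def OneStmt : Prop := ∀ (E : Type) [NormedAddCommGroup E] [NormedSpace ℝ E] [FiniteDimensional ℝ E]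
  (c B : Set E), IsCompact c → IsPreconnected c → c.Nonempty →
  (∀ x ∈ c, ∃ A p q, IsBall 1 A {p, q} ∧ A ⊆ c ∧
    ((x ∈ A \ {p, q} ∧ ROpen c (A \ {p, q}) ∧ Disjoint A B) ∨
      (x ∈ A \ {q} ∧ ROpen c (A \ {q}) ∧ A ∩ B = {p}))) →
  (Nonempty (PLEquiv (S1 ℝ) c) ∧ Disjoint c B) ∨ ∃ p q, IsBall 1 c {p, q} ∧ c ∩ B = {p, q}

/-- **(GP)** general position -/
def GPStmt : Prop := ∀ (E : Type) [NormedAddCommGroup E] [NormedSpace ℝ E] [FiniteDimensional ℝ E]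
  (Γ : Type) [Group Γ] (W dW G : Set E) (c : E → E → Γ) (t : E → E) (U : Set E) (l : E → ℝ) (η : ℝ),
  dW ⊆ W → G ⊆ dW → Coc G c → Inv W dW G c t → Fam W dW G c U l η →
  ∃ U' l' η', Fam W dW G c U' l' η' ∧ Tr W dW U' l' t

/-- **(STEP)** one surgery -/
def StepStmt : Prop := ∀ (E : Type) [NormedAddCommGroup E] [NormedSpace ℝ E] [FiniteDimensional ℝ E]
  (Γ : Type) [Group Γ] (W dW G : Set E) (c : E → E → Γ) (t : E → E) (U : Set E) (l : E → ℝ) (η : ℝ)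
  (n : ℕ), dW ⊆ W → G ⊆ dW → Coc G c → Inv W dW G c t → Fam W dW G c U l η → Tr W dW U l t →
  (Dbl U l t).Nonempty → Cnt (Dbl U l t) (n + 1) →
  ∃ U' l' η', Fam W dW G c U' l' η' ∧ Tr W dW U' l' t ∧ Cnt (Dbl U' l' t) n

/-- **(FAM)** an essential disc is the zero level of a family -/
def FamStmt : Prop := ∀ (E : Type) [NormedAddCommGroup E] [NormedSpace ℝ E] [FiniteDimensional ℝ E]
  (Γ : Type) [Group Γ] (W dW G : Set E) (c : E → E → Γ) (D : Set E),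
  MfE W dW → ROpen dW G → Coc G c → Ess W dW G c D → ∃ U l η, Fam W dW G c U l η

end Crest.Agent.X212.Dsc4
end

-- ▼ part X212/Gp83/A
section

/-!
# X212 / Gp83 (helper83), part 1: PL homeomorphisms of three-space used for general position
-/

set_option autoImplicit false
set_option linter.unusedSectionVars false

open Set Metric Topology Filter
open scoped NNReal

namespace Crest.Agent.X212.Gp83

open Crest.Agent.R096 Crest.Agent.R096.Ce_537 Crest.Agent.X212.Lad50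
open Crest.Agent.X212.Prd34 (V up)
open Crest.Agent.X212.Dsc4

/-- a small Lipschitz perturbation of the identity -/
theorem exists_homeo {ψ : V → V} (hp : PLOn ψ univ) {c : ℝ≥0} (hl : LipschitzWith c ψ) (hc : c < 1) :
    ∃ H : PLEquiv (univ : Set V) (univ : Set V), ∀ y, H.f y = y - ψ y := by
  have k : ∀ z, ContractingWith c fun y => z + ψ y := fun z =>
    ⟨hc, LipschitzWith.of_dist_le_mul fun x y => by rw [dist_add_left]; exact hl.dist_le_mul x y⟩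
  obtain ⟨H, hH⟩ := Cx_609.exists_equiv_of_bijOn (t := univ) convex_univ.finConv isClosed_univ
    (pl_sub (plOn_id _) hp) ⟨mapsTo_univ _ _, fun x _ y _ e => (k (x - ψ x)).fixedPoint_unique'
      (sub_add_cancel _ _) (by rw [show x - ψ x = y - ψ y from e]; exact sub_add_cancel _ _),
      fun z _ => ⟨_, mem_univ _, sub_eq_of_eq_add ((k z).fixedPoint_isFixedPt).symm⟩⟩
  exact ⟨H, congrFun hH⟩

/-- a germ of a PL map extends to a global Lipschitz PL map -/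
theorem ext_lip {X : Type*} [NormedAddCommGroup X] [NormedSpace ℝ X] {F : V → X} {O : Set V} {z : V}
    (hz : z ∈ up) (hO : O ∈ 𝓝[up] z) (hF : PLOn F O) :
    ∃ (F' : V → X) (C : ℝ≥0), PLOn F' univ ∧ LipschitzWith C F' ∧ F' =ᶠ[𝓝[up] z] F ∧
      ∀ y, ∃ y' ∈ O, F' y = F y' := by
  obtain ⟨r, hr, hs⟩ := (nhdsWithin_hasBasis nhds_basis_closedBall up).mem_iff.1 hO
  let lo : V := fun i => if i = 2 then max 0 (z 2 - r) else z i - r
  let hi : V := fun i => z i + r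
  have h1 : ∀ y, y ∈ Icc lo hi ↔ y ∈ closedBall z r ∩ up := fun y => by
    rw [closedBall_pi _ hr.le]
    simp only [mem_Icc, Pi.le_def, Fin.forall_fin_succ, lo, hi, mem_inter_iff, Set.mem_pi, mem_univ,
      Real.closedBall_eq_Icc, up, mem_ofPred_eq]
    simp
    tauto
  have h0 : lo ≤ hi := ((h1 z).2 ⟨mem_closedBall_self hr.le, hz⟩).1.trans
    ((h1 z).2 ⟨mem_closedBall_self hr.le, hz⟩).2
  let P : V → V := fun y i => max (lo i) (min (hi i) (y i))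
  have p1 : ∀ y, P y ∈ Icc lo hi := fun y =>
    ⟨fun i => le_max_left _ _, fun i => max_le (h0 i) (min_le_left _ _)⟩
  have p2 : PLOn P univ := pl_pi fun i =>
    pl_max (plOn_const _ _) (pl_min (plOn_const _ _) (pl_coord i _))
  have p3 : LipschitzWith 1 P := LipschitzWith.of_dist_le_mul fun x y => by
    rw [NNReal.coe_one, one_mul, dist_pi_le_iff dist_nonneg]
    intro i
    have := (((LipschitzWith.eval (α := fun _ : Fin 3 => ℝ) i).const_min (hi i)).const_max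
      (lo i)).dist_le_mul x y
    simpa using this
  have h2 : Icc lo hi ⊆ O := fun y hy => hs ((h1 y).1 hy)
  obtain ⟨hc, S, hS⟩ := hF.mono h2
  obtain ⟨C, hC⟩ := Sk_962.lipschitzOn_of_sel (convex_Icc lo hi) hc hS
  refine ⟨fun y => F (P y), C * 1, (hF.mono h2).comp p2 fun y _ => p1 y,
    lipschitzOnWith_univ.1 (hC.comp p3.lipschitzOnWith fun y _ => p1 y), ?_,
    fun y => ⟨_, h2 (p1 y), rfl⟩⟩
  filter_upwards [inter_mem_nhdsWithin up (closedBall_mem_nhds z hr)] with y hy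
  have := (h1 y).2 ⟨hy.2, hy.1⟩
  exact congrArg F (funext fun i => by simp only [P, min_eq_right (this.2 i), max_eq_right (this.1 i)])

theorem aff_add (α : V →ᵃ[ℝ] ℝ) (w d : V) (s : ℝ) : α (w + s • d) = α w + s * α.linear d := by
  rw [add_comm w, ← vadd_eq_add, α.map_vadd, map_smul, vadd_eq_add, add_comm, smul_eq_mul]

/-- a function with a shear direction is a coordinate -/
theorem shear {f : V → ℝ} {O : Set V} {z v : V} (hz : z ∈ up) (hO : O ∈ 𝓝[up] z) (hf : PLOn f O)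
    (v0 : v 0 = 0) (v2 : z 2 = 0 → v 2 = 0) (hv : v ≠ 0)
    (hs : ∀ w ∈ O, ∀ s : ℝ, w + s • v ∈ O → f (w + s • v) = f w + s) :
    ∃ H : PLEquiv (univ : Set V) (univ : Set V), (z 2 = 0 → ∀ y, H.f y 2 = y 2) ∧
      (z 2 ≠ 0 → 0 < H.f z 2) ∧ ∀ᶠ y in 𝓝[up] z, H.f y 0 = f y - f z ∧ H.f y 1 = y 0 := by
  obtain ⟨f', -, p1, -, p2, -⟩ := ext_lip hz hO hf
  have hn : v 1 ^ 2 + v 2 ^ 2 ≠ 0 := fun h => hv (by
    ext i
    fin_cases i
    exacts [v0, by simp; nlinarith [sq_nonneg (v 1), sq_nonneg (v 2)],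
      by simp; nlinarith [sq_nonneg (v 1), sq_nonneg (v 2)]])
  obtain ⟨κ, γ, hκ, k1, k2⟩ : ∃ κ γ : ℝ, κ ≠ 0 ∧ (z 2 = 0 → κ = v 1 ∧ γ = 0) ∧ (z 2 ≠ 0 → γ = 1) := by
    by_cases h : z 2 = 0
    · exact ⟨v 1, 0, fun e => hn (by simp [e, v2 h]), fun _ => ⟨rfl, rfl⟩, fun h' => absurd h h'⟩
    · exact ⟨1, 1, one_ne_zero, fun h' => absurd h' h, fun _ => rfl⟩
  set n := v 1 ^ 2 + v 2 ^ 2 with en
  let lam : V → ℝ := fun y => n⁻¹ * (v 1 * (y 1 - z 1) + v 2 * (y 2 - z 2))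
  have l1 : ∀ (y : V) (s : ℝ), lam (y + s • v) = lam y + s := fun y s => by
    simp only [lam, Pi.add_apply, Pi.smul_apply, smul_eq_mul]
    field_simp
    ring
  have c : ∀ i K, PLOn (fun y : V => y i - z i) K := fun i K => pl_sub (pl_coord i K) (plOn_const _ _)
  have l2 : PLOn lam univ := pl_mul _ (pl_add (pl_mul _ (c 1 _)) (pl_mul _ (c 2 _)))
  let P : V → V := fun y => y + (-lam y) • v
  have q1 : PLOn P univ := pl_add (plOn_id _) (pl_smul_const (pl_neg l2) v)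
  let φ : V → ℝ := fun y => f' (P y) - f z
  have q2 : PLOn φ univ := pl_sub (p1.comp q1 (mapsTo_univ _ _)) (plOn_const _ _)
  have q3 : ∀ (y : V) (s : ℝ), φ (y + s • v) = φ y := fun y s => by
    simp only [φ, P, l1]
    congr 2
    module
  let Ψ : PLEquiv (univ : Set V) (univ : Set V) :=
    ⟨fun y => y + φ y • v, fun y => y + (-φ y) • v, pl_add (plOn_id _) (pl_smul_const q2 v),
      pl_add (plOn_id _) (pl_smul_const (pl_neg q2) v), mapsTo_univ _ _, mapsTo_univ _ _,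
      fun y _ => by rw [q3]; module, fun y _ => by rw [q3]; module⟩
  let T : PLEquiv (univ : Set V) (univ : Set V) :=
    ⟨fun y => ![lam y, y 0, κ⁻¹ * (v 1 * (y 2 - z 2) - v 2 * (y 1 - z 1)) + γ],
      fun u => ![u 1, z 1 + (v 1 * u 0 - v 2 * κ / n * (u 2 - γ)), z 2 + (v 2 * u 0 + v 1 * κ / n * (u 2 - γ))],
      pl_vec3 l2 (pl_coord 0 _) (pl_add (pl_mul _ (pl_sub (pl_mul _ (c 2 _)) (pl_mul _ (c 1 _))))
        (plOn_const _ _)),
      pl_vec3 (pl_coord 1 _) (pl_add (plOn_const _ _) (pl_sub (pl_mul _ (pl_coord 0 _))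
        (pl_mul _ (pl_sub (pl_coord 2 _) (plOn_const _ _))))) (pl_add (plOn_const _ _)
          (pl_add (pl_mul _ (pl_coord 0 _)) (pl_mul _ (pl_sub (pl_coord 2 _) (plOn_const _ _))))),
      mapsTo_univ _ _, mapsTo_univ _ _,
      fun y _ => by
        ext i
        fin_cases i <;> simp [lam] <;> field_simp <;> ring,
      fun y _ => by
        ext i
        fin_cases i <;> simp [lam] <;> field_simp <;> ring⟩
  refine ⟨Ψ.trans T, fun h y => ?_, fun h => ?_, ?_⟩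
  · have := (k1 h).1 ▸ hκ
    simp [PLEquiv.trans, T, Ψ, k1 h, v2 h, h, this]
  · simp [PLEquiv.trans, T, Ψ, k2 h, mul_comm, mul_left_comm]
  · have t : Tendsto P (𝓝[up] z) (𝓝[up] z) := by
      have pz : P z = z := by simp [P, lam]
      have hc : ContinuousAt P z := (continuousOn_univ.1 q1.1).continuousAt
      refine tendsto_nhdsWithin_iff.2 ⟨Tendsto.mono_left (by simpa only [pz] using hc.tendsto)
        nhdsWithin_le_nhds, ?_⟩
      by_cases h : z 2 = 0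
      · filter_upwards [self_mem_nhdsWithin] with y hy
        simpa [P, up, v2 h] using hy
      · refine (hc.eventually ?_).filter_mono nhdsWithin_le_nhds
        rw [pz]
        exact ((continuous_apply 2).continuousAt.eventually
          (lt_mem_nhds (lt_of_le_of_ne hz (Ne.symm h)))).mono fun y hy => le_of_lt hy
    filter_upwards [hO, t.eventually hO, t.eventually p2] with y h1 h2 h3
    have e : P y + lam y • v = y := by simp only [P]; module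
    have := hs _ h2 (lam y) (e.symm ▸ h1)
    rw [e] at this
    refine ⟨?_, by simp [PLEquiv.trans, T, Ψ, v0]⟩
    show lam (y + φ y • v) = _
    rw [l1, this]
    simp only [φ, h3]
    ring

/-- all but finitely many levels of a PL function are transverse to the plane `y 0 = 0` -/
theorem dens {f : V → ℝ} {O : Set V} (hO : ROpen up O) (hf : PLOn f O) :
    ∃ F : Set ℝ, F.Finite ∧ ∀ z ∈ O, z 0 = 0 → f z ∉ F →
      ∃ H : PLEquiv (univ : Set V) (univ : Set V), (z 2 = 0 → ∀ y, H.f y 2 = y 2) ∧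
        (z 2 ≠ 0 → 0 < H.f z 2) ∧ ∀ᶠ y in 𝓝[up] z, H.f y 0 = f y - f z ∧ H.f y 1 = y 0 := by
  classical
  obtain ⟨hc, S, hS⟩ := hf
  let A : Finset (V →ᵃ[ℝ] ℝ) → Prop → Set V := fun I b =>
    {y | y 0 = 0 ∧ (b → y 2 = 0) ∧ ∀ α ∈ I, ∀ β ∈ I, α y = β y}
  refine ⟨⋃ I ∈ S.powerset, ⋃ b : Prop, ⋃ α ∈ S, {a | (A I b).Nonempty ∧ ∀ y ∈ A I b, α y = a},
    S.powerset.finite_toSet.biUnion fun I _ => finite_iUnion fun b => S.finite_toSet.biUnion fun α _ =>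
      Set.Subsingleton.finite fun a ha a' ha' => ?_, fun z hz z0 hF => ?_⟩
  · obtain ⟨y, hy⟩ := ha.1
    exact (ha.2 y hy).symm.trans (ha'.2 y hy)
  obtain ⟨B, hB, rfl⟩ := hO
  have hO : B ∩ up ∈ 𝓝[up] z := inter_mem (mem_nhdsWithin_of_mem_nhds (hB.mem_nhds hz.1)) self_mem_nhdsWithin
  let I := S.filter fun α => α z = f z
  obtain ⟨α₀, h0, e0⟩ := hS z hz
  have zA : z ∈ A I (z 2 = 0) := ⟨z0, id, fun α hα β hβ =>
    (Finset.mem_filter.1 hα).2.trans (Finset.mem_filter.1 hβ).2.symm⟩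
  obtain ⟨y, hy, hne⟩ : ∃ y ∈ A I (z 2 = 0), α₀ y ≠ f z := by
    by_contra! h
    exact hF (mem_biUnion (Finset.mem_powerset.2 (Finset.filter_subset _ _))
      (mem_iUnion.2 ⟨z 2 = 0, mem_biUnion h0 ⟨⟨z, zA⟩, h⟩⟩))
  have hne' := sub_ne_zero.2 hne
  let v : V := (α₀ y - f z)⁻¹ • (y - z)
  have lv : ∀ α ∈ I, α.linear v = 1 := fun α hα => by
    rw [map_smul, ← vsub_eq_sub y z, α.linearMap_vsub, vsub_eq_sub, (Finset.mem_filter.1 hα).2,
      hy.2.2 α hα α₀ (Finset.mem_filter.2 ⟨h0, e0.symm⟩), smul_eq_mul, inv_mul_cancel₀ hne']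
  have h1 : ∀ᶠ w in 𝓝[up] z, ∀ α ∈ S, f w = α w → α ∈ I := by
    refine (eventually_all_finset S).2 fun α hα => ?_
    by_cases h : α z = f z
    · exact Eventually.of_forall fun _ _ => Finset.mem_filter.2 ⟨hα, h⟩
    · have := ((hc z hz).mono_of_mem_nhdsWithin hO).sub
        α.continuous_of_finiteDimensional.continuousWithinAt
      exact (this.eventually_ne (sub_ne_zero.2 (Ne.symm h))).mono fun w hw e =>
        absurd (sub_eq_zero.2 e) hw
  obtain ⟨r, hr, hs⟩ := nhdsWithin_basis_ball.mem_iff.1 (inter_mem hO h1)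
  have cv : Convex ℝ (ball z r ∩ up) :=
    (convex_ball _ _).inter (convex_halfSpace_ge (LinearMap.proj (R := ℝ) (φ := fun _ : Fin 3 => ℝ) 2).isLinear 0)
  refine shear (v := v) hz.2 (inter_mem (mem_nhdsWithin_of_mem_nhds (ball_mem_nhds z hr))
    self_mem_nhdsWithin) (PLOn.mono ⟨hc, S, hS⟩ fun w hw => (hs hw).1) (by simp [v, hy.1, z0])
    (fun h => by simp [v, hy.2.1 h, h]) (fun h => by simpa [h] using lv α₀ (Finset.mem_filter.2 ⟨h0, e0.symm⟩))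
    fun w hw s hs' => ?_
  have m : ∀ τ ∈ Icc (0 : ℝ) 1, w + (τ * s) • v ∈ ball z r ∩ up := fun τ hτ => by
    rw [mul_smul]
    exact cv.add_smul_mem hw hs' hτ
  have := isPreconnected_Icc.constant_of_mapsTo (T := (fun α : V →ᵃ[ℝ] ℝ => α w) '' I)
    (f := fun τ : ℝ => f (w + (τ * s) • v) - τ * s) (I.finite_toSet.image _).isDiscrete
    ((hc.comp (by fun_prop) fun τ hτ => (hs (m τ hτ)).1).sub (by fun_prop)) (fun τ hτ => by
      obtain ⟨α, hα, e⟩ := hS _ (hs (m τ hτ)).1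
      have hI := (hs (m τ hτ)).2 α hα e
      exact ⟨α, hI, by simp only [e, aff_add, lv α hI]; ring⟩)
    (left_mem_Icc.2 zero_le_one) (right_mem_Icc.2 zero_le_one)
  simp only [zero_mul, zero_smul, add_zero, sub_zero, one_mul] at this
  linarith

end Crest.Agent.X212.Gp83
end

-- ▼ part X212/Gp83/B
section

/-!
# X212 / Gp83 (helper83), part 2: charts, shifts in a box, transport of families
-/

set_option autoImplicit false
set_option linter.unusedSectionVars false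

open Set Metric Topology Filter
open scoped NNReal

namespace Crest.Agent.X212.Gp83

open Crest.Agent.R096 Crest.Agent.R096.Ce_537 Crest.Agent.X212.Lad50
open Crest.Agent.X212.Prd34 (V up)
open Crest.Agent.X212.Dsc4
open Crest.Agent.X212.Lev33 (Coc Prim)

variable {E : Type} [NormedAddCommGroup E] [NormedSpace ℝ E] {W dW : Set E}

theorem ro_sub {X : Type*} [TopologicalSpace X] {W O : Set X} (h : ROpen W O) : O ⊆ W := by
  obtain ⟨A, -, rfl⟩ := h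
  exact inter_subset_right

theorem ro_nhds {X : Type*} [TopologicalSpace X] {W O : Set X} (h : ROpen W O) {x : X} (hx : x ∈ O) :
    O ∈ 𝓝[W] x := by
  obtain ⟨A, hA, rfl⟩ := h
  exact inter_mem (mem_nhdsWithin_of_mem_nhds (hA.mem_nhds hx.1)) self_mem_nhdsWithin

theorem ro_pre {X Y : Type*} [TopologicalSpace X] [TopologicalSpace Y] {W O : Set X} (h : ROpen W O)
    {f : X → Y} (hf : ContinuousOn f O) {A : Set Y} (hA : IsOpen A) : ROpen W (O ∩ f ⁻¹' A) := by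
  obtain ⟨B, hB, e⟩ := continuousOn_iff'.1 hf A hA
  obtain ⟨C, hC, rfl⟩ := h
  exact ⟨B ∩ C, hB.inter hC, by rw [inter_comm, e, inter_assoc]⟩

theorem tendsto_e (k : Ch W dW) {x : E} (hx : x ∈ k.O) : Tendsto k.e.f (𝓝[W] x) (𝓝[up] (k.e.f x)) :=
  tendsto_nhdsWithin_iff.2 ⟨(k.e.pf.1 x hx).mono_of_mem_nhdsWithin (ro_nhds k.opn hx),
    mem_of_superset (ro_nhds k.opn hx) fun _ hy => ro_sub k.opn' (k.e.mf hy)⟩

/-- restriction of a chart -/
noncomputable def restr (k : Ch W dW) {A : Set E} (hA : IsOpen A) : Ch W dW where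
  O := k.O ∩ A
  O' := k.O' ∩ k.e.g ⁻¹' A
  e := k.e.restr inter_subset_left inter_subset_left
    (fun x hx => ⟨k.e.mf hx.1, by rw [mem_preimage, k.e.li x hx.1]; exact hx.2⟩)
    fun _ hy => ⟨k.e.mg hy.1, hy.2⟩
  opn := ro_pre k.opn continuousOn_id hA
  opn' := ro_pre k.opn' k.e.pg.1 hA
  bd := fun x hx => k.bd x hx.1

theorem exists_restr (k : Ch W dW) {x : E} (hx : x ∈ k.O) {N : Set E} (hN : N ∈ 𝓝[W] x) :
    ∃ k' : Ch W dW, x ∈ k'.O ∧ k'.O ⊆ k.O ∩ N ∧ k'.e.f = k.e.f := by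
  obtain ⟨A, hA, h1, h2⟩ := mem_nhdsWithin.1 hN
  exact ⟨restr k hA, ⟨hx, h1⟩, fun y hy => ⟨hy.1, h2 ⟨hy.2, ro_sub k.opn hy.1⟩⟩, rfl⟩

theorem image_univ_eq (H : PLEquiv (univ : Set V) (univ : Set V)) (A : Set V) : H.f '' A = H.g ⁻¹' A :=
  Subset.antisymm (by rintro _ ⟨y, hy, rfl⟩; rwa [mem_preimage, H.li y trivial])
    fun y hy => ⟨_, hy, H.ri y trivial⟩

/-- post-composition of a chart -/
noncomputable def post (k : Ch W dW) (H : PLEquiv (univ : Set V) (univ : Set V))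
    (h : (∀ y, H.f y 2 = y 2) ∨ ∀ x ∈ k.O, 0 < k.e.f x 2 ∧ 0 < H.f (k.e.f x) 2) : Ch W dW where
  O := k.O
  O' := H.f '' k.O'
  e := k.e.trans (H.restrImage (subset_univ _))
  opn := k.opn
  opn' := by
    have c := continuousOn_univ.1 H.pg.1
    obtain ⟨A, hA, e⟩ := k.opn'
    rcases h with h | h
    · refine ⟨H.g ⁻¹' A, hA.preimage c, ?_⟩
      rw [image_univ_eq, e, preimage_inter]
      congr 1
      ext y
      show 0 ≤ H.g y 2 ↔ 0 ≤ y 2
      rw [← h (H.g y), H.ri y trivial]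
    · have h' : ∀ y ∈ k.O', 0 < y 2 ∧ 0 < H.f y 2 := fun y hy => k.e.ri y hy ▸ h _ (k.e.mg hy)
      have : k.O' = A ∩ {y | 0 < y 2} := Subset.antisymm (fun y hy => ⟨(e.le hy).1, (h' y hy).1⟩)
        fun y hy => e.ge ⟨hy.1, le_of_lt (b := y 2) hy.2⟩
      refine ⟨H.f '' k.O', ?_, (inter_eq_left.2 ?_).symm⟩
      · rw [image_univ_eq, this]
        exact (hA.inter (isOpen_lt continuous_const (continuous_apply 2))).preimage c
      · rintro _ ⟨y, hy, rfl⟩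
        exact (h' y hy).2.le
  bd := fun x hx => (k.bd x hx).trans (by
    show _ ↔ H.f (k.e.f x) 2 = 0
    rcases h with h | h
    · rw [h]
    · exact iff_of_false (h x hx).1.ne' (h x hx).2.ne')

theorem exists_post (k : Ch W dW) {x : E} (hx : x ∈ k.O) (H : PLEquiv (univ : Set V) (univ : Set V))
    (h1 : k.e.f x 2 = 0 → ∀ y, H.f y 2 = y 2) (h2 : k.e.f x 2 ≠ 0 → 0 < H.f (k.e.f x) 2) {N : Set E}
    (hN : N ∈ 𝓝[W] x) : ∃ k' : Ch W dW, x ∈ k'.O ∧ k'.O ⊆ k.O ∩ N ∧ ∀ y, k'.e.f y = H.f (k.e.f y) := by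
  by_cases h : k.e.f x 2 = 0
  · obtain ⟨k', a, b, c⟩ := exists_restr k hx hN
    exact ⟨post k' H (Or.inl (h1 h)), a, b, fun y => c ▸ rfl⟩
  · have t := (tendsto_e k hx).mono_right nhdsWithin_le_nhds
    have c2 : Continuous fun y : V => y 2 := continuous_apply 2
    obtain ⟨k', a, b, c⟩ := exists_restr k hx (inter_mem hN ((t.eventually (c2.continuousAt.eventually
      (lt_mem_nhds (lt_of_le_of_ne (ro_sub k.opn' (k.e.mf hx)) (Ne.symm h))))).and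
      (t.eventually ((c2.comp (continuousOn_univ.1 H.pf.1)).continuousAt.eventually (lt_mem_nhds (h2 h))))))
    exact ⟨post k' H (Or.inr fun y hy => c ▸ (b hy).2.2), a, fun y hy => ⟨(b hy).1, (b hy).2.1⟩,
      fun y => congrArg H.f (congrFun c y)⟩

/-- pull-back of a chart -/
noncomputable def pre (k : Ch W dW) (q : PLEquiv W W) (hq : ∀ x ∈ W, q.f x ∈ dW ↔ x ∈ dW) : Ch W dW where
  O := W ∩ q.f ⁻¹' k.O
  O' := k.O'
  e := (q.restr inter_subset_left (ro_sub k.opn) (fun _ hx => hx.2) fun y hy =>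
    ⟨q.mg (ro_sub k.opn hy), show q.f (q.g y) ∈ k.O by rwa [q.ri y (ro_sub k.opn hy)]⟩).trans k.e
  opn := by
    obtain ⟨A, hA, e⟩ := k.opn
    have := ro_pre ⟨univ, isOpen_univ, (univ_inter W).symm⟩ q.pf.1 hA
    convert this using 1
    ext x
    exact and_congr_right fun hx => by rw [e]; exact and_iff_left (q.mf hx)
  opn' := k.opn'
  bd := fun x hx => (hq x hx.1).symm.trans (k.bd _ hx.2)

/-- extension by a fixed map off a closed subset of a relatively open set -/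
theorem cont_if {X Y : Type*} [TopologicalSpace X] [TopologicalSpace Y] {W O S : Set X}
    (hO : ∀ x ∈ O, O ∈ 𝓝[W] x) (hS : IsClosed S) (hSO : W ∩ S ⊆ O) {f g h : X → Y} (hf : ContinuousOn f O)
    (hg : ContinuousOn g W) (h1 : ∀ x ∈ O, h x = f x) (h2 : ∀ x ∈ W, x ∉ S → h x = g x) :
    ContinuousOn h W := fun x hx => by
  by_cases a : x ∈ S
  · have b := hSO ⟨hx, a⟩
    exact ((hf x b).mono_of_mem_nhdsWithin (hO x b)).congr_of_eventuallyEq
      (mem_of_superset (hO x b) h1) (h1 x b)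
  · exact (hg x hx).congr_of_eventuallyEq (by
      filter_upwards [self_mem_nhdsWithin, mem_nhdsWithin_of_mem_nhds (hS.isOpen_compl.mem_nhds a)]
        with y h h' using h2 y h h') (h2 x hx a)

theorem pl_if {F : Type*} [NormedAddCommGroup F] [NormedSpace ℝ F] {O S : Set E} (hO : ROpen W O)
    (hS : IsClosed S) (hSO : S ⊆ O) {f g h : E → F} (hf : PLOn f O) (hg : PLOn g W)
    (h1 : ∀ x ∈ O, h x = f x) (h2 : ∀ x ∈ W, x ∉ S → h x = g x) : PLOn h W := by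
  classical
  refine ⟨cont_if (fun x => ro_nhds hO) hS (inter_subset_right.trans hSO) hf.1 hg.1 h1 h2, ?_⟩
  obtain ⟨-, A, hA⟩ := hf
  obtain ⟨-, B, hB⟩ := hg
  refine ⟨A ∪ B, fun x hx => ?_⟩
  by_cases a : x ∈ S
  · obtain ⟨α, hα, e⟩ := hA x (hSO a)
    exact ⟨α, Finset.mem_union_left _ hα, (h1 x (hSO a)).trans e⟩
  · obtain ⟨α, hα, e⟩ := hB x hx
    exact ⟨α, Finset.mem_union_right _ hα, (h2 x hx a).trans e⟩

/-- a shift in the first coordinate, supported in a box of a chart -/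
structure Shift (k : Ch W dW) (c : V) (ρ : ℝ) (S : Set E) (g : ℝ → E → E) (χ : E → ℝ) : Prop where
  cont : ContinuousOn (fun p : ℝ × E => g p.1 p.2) (Icc (-ρ) ρ ×ˢ W)
  zero : ∀ x, g 0 x = x
  pl : PLOn χ W
  le : ∀ x, |χ x| ≤ 1
  one : ∀ x ∈ k.O, k.e.f x ∈ ball c ρ → χ x = 1
  off : ∀ x ∉ S, χ x = 0 ∧ ∀ a, g a x = x
  on : ∀ a ∈ Icc (-ρ) ρ, ∀ x ∈ S, g a x ∈ S ∧ k.e.f (g a x) 0 = k.e.f x 0 - a * χ x ∧
    k.e.f (g a x) 2 = k.e.f x 2
  eqv : ∀ a, |a| < ρ → ∃ q : PLEquiv W W, ∀ x ∈ W, q.f x = g a x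

theorem exists_shift (k : Ch W dW) {c : V} {ρ : ℝ} (hρ : 0 < ρ) (hB : closedBall c (2 * ρ) ∩ up ⊆ k.O') :
    ∃ g χ, Shift k c ρ (k.e.g '' (closedBall c (2 * ρ) ∩ up)) g χ := by
  classical
  set B := closedBall c (2 * ρ) ∩ up with eB
  let β : V → ℝ := fun y => max 0 (min 1 (2 - ρ⁻¹ * ‖y - c‖))
  let e0 : V := Pi.single 0 1
  have n0 : ‖e0‖ = 1 := by simp [e0, Pi.norm_single]
  have b1 : ∀ K, PLOn β K := fun K => pl_max (plOn_const _ _) (pl_min (plOn_const _ _)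
    (pl_sub (plOn_const _ _) (pl_mul _ (pl_norm (pl_sub (plOn_id _) (plOn_const _ _))))))
  have b2 : ∀ y, |β y| ≤ 1 := fun y =>
    abs_le.2 ⟨neg_one_lt_zero.le.trans (le_max_left _ _), max_le zero_le_one (min_le_left _ _)⟩
  have b3 : ∀ y, y ∉ closedBall c (2 * ρ) → β y = 0 := fun y hy => by
    rw [mem_closedBall_iff_norm, not_le, ← lt_inv_mul_iff₀' hρ] at hy
    exact max_eq_left ((min_le_right _ _).trans (by linarith))
  have b4 : ∀ a ∈ Icc (-ρ) ρ, ∀ y ∈ B, y - (a * β y) • e0 ∈ B := fun a ha y hy => by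
    refine ⟨?_, by simpa [up, e0] using hy.2⟩
    have h1 := mem_closedBall_iff_norm.1 hy.1
    have h2 : |β y| ≤ 2 - ρ⁻¹ * ‖y - c‖ := by
      rw [abs_of_nonneg (le_max_left _ _)]
      exact max_le (sub_nonneg.2 ((inv_mul_le_iff₀' hρ).2 h1)) (min_le_right _ _)
    have h3 := mul_le_mul (abs_le.2 ha) h2 (abs_nonneg _) hρ.le
    rw [mul_sub, mul_inv_cancel_left₀ hρ.ne'] at h3
    rw [mem_closedBall_iff_norm, sub_right_comm]
    refine (norm_sub_le _ _).trans ?_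
    rw [norm_smul, n0, Real.norm_eq_abs, abs_mul]
    linarith
  have b5 : ∀ a ∈ Icc (-ρ) ρ, ∀ y ∈ k.O', y - (a * β y) • e0 ∈ k.O' := fun a ha y hy => by
    by_cases h : y ∈ closedBall c (2 * ρ)
    · exact hB (b4 a ha y ⟨h, ro_sub k.opn' hy⟩)
    · simpa [b3 y h] using hy
  have cB : IsCompact B := (isCompact_closedBall _ _).inter_right
    (isClosed_le continuous_const (continuous_apply 2))
  have cS : IsClosed (k.e.g '' B) := (cB.image_of_continuousOn (k.e.pg.1.mono hB)).isClosed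
  have sS : k.e.g '' B ⊆ k.O := by rintro _ ⟨y, hy, rfl⟩; exact k.e.mg (hB hy)
  have o1 : ∀ x ∈ k.O, x ∉ k.e.g '' B → k.e.f x ∉ closedBall c (2 * ρ) := fun x hx h h' =>
    h ⟨_, ⟨h', ro_sub k.opn' (k.e.mf hx)⟩, k.e.li x hx⟩
  have ext : ∀ f : V → V, PLOn f univ → MapsTo f k.O' k.O' → (∀ y ∉ closedBall c (2 * ρ), f y = y) →
      PLOn (fun x => if x ∈ k.O then k.e.g (f (k.e.f x)) else x) W := fun f h1 h2 h3 =>
    pl_if k.opn cS sS (k.e.pg.comp (h1.comp k.e.pf (mapsTo_univ _ _)) (h2.comp k.e.mf)) (plOn_id W)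
      (fun x hx => if_pos hx) fun x _ hx => by
        split_ifs with h
        · rw [h3 _ (o1 x h hx), k.e.li x h]
        · rfl
  have off : ∀ x ∉ k.e.g '' B, ∀ a : ℝ,
      (if x ∈ k.O then k.e.g (k.e.f x - (a * β (k.e.f x)) • e0) else x) = x := fun x hx a => by
    split_ifs with h
    · simp [b3 _ (o1 x h hx), k.e.li x h]
    · rfl
  have off' : ∀ x ∉ k.e.g '' B, (if x ∈ k.O then β (k.e.f x) else 0) = 0 := fun x hx => by
    split_ifs with h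
    exacts [b3 _ (o1 x h hx), rfl]
  refine ⟨fun a x => if x ∈ k.O then k.e.g (k.e.f x - (a * β (k.e.f x)) • e0) else x,
    fun x => if x ∈ k.O then β (k.e.f x) else 0, ?_, fun x => ?_, ?_, fun x => ?_, fun x hx h => ?_,
    fun x hx => ⟨off' x hx, off x hx⟩, fun a ha x hx => ?_, fun a ha => ?_⟩
  · have c1 : ContinuousOn (fun p : ℝ × E => k.e.f p.2) (Icc (-ρ) ρ ×ˢ k.O) :=
      k.e.pf.1.comp continuousOn_snd fun p hp => hp.2
    refine cont_if (O := Icc (-ρ) ρ ×ˢ k.O) (S := univ ×ˢ (k.e.g '' B)) (fun p hp => ?_)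
      (isClosed_univ.prod cS) (fun p hp => ⟨hp.1.1, sS hp.2.2⟩) (k.e.pg.1.comp (c1.sub
        ((continuousOn_fst.mul ((continuousOn_univ.1 (b1 univ).1).comp_continuousOn c1)).smul
          continuousOn_const)) fun p hp => b5 _ hp.1 _ (k.e.mf hp.2)) continuousOn_snd
      (fun p hp => if_pos hp.2) fun p _ hp => off _ (fun h => hp ⟨trivial, h⟩) _
    rw [nhdsWithin_prod_eq]
    exact prod_mem_prod self_mem_nhdsWithin (ro_nhds k.opn hp.2)
  · split_ifs with h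
    · simp [k.e.li x h]
    · rfl
  · exact pl_if k.opn cS sS ((b1 univ).comp k.e.pf (mapsTo_univ _ _)) (plOn_const 0 W)
      (fun x hx => if_pos hx) fun x _ hx => off' x hx
  · split_ifs
    exacts [b2 _, by simp]
  · rw [mem_ball_iff_norm, ← mul_one ρ, ← inv_mul_lt_iff₀ hρ] at h
    rw [if_pos hx]
    simp only [β]
    rw [min_eq_left (by linarith), max_eq_right zero_le_one]
  · have hx' := sS hx
    have h1 : k.e.f x ∈ B := by
      obtain ⟨y, hy, rfl⟩ := hx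
      rwa [k.e.ri y (hB hy)]
    simp only [if_pos hx', k.e.ri _ (hB (b4 a ha _ h1))]
    exact ⟨⟨_, b4 a ha _ h1, rfl⟩, by simp [e0], by simp [e0]⟩
  · obtain ⟨H, hH⟩ := exists_homeo (ψ := fun y => (a * β y) • e0) (c := ⟨|a| * ρ⁻¹, by positivity⟩)
      (pl_smul_const (pl_mul a (b1 _)) e0) (LipschitzWith.of_dist_le_mul fun y y' => by
        rw [dist_eq_norm, ← sub_smul, norm_smul, n0, mul_one, ← mul_sub, Real.norm_eq_abs, abs_mul]
        refine (mul_le_mul_of_nonneg_left ?_ (abs_nonneg a)).trans_eq (mul_assoc _ _ _).symm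
        refine (abs_max_sub_max_le_max _ _ _ _).trans (max_le (by simp; positivity)
          ((abs_min_sub_min_le_max _ _ _ _).trans (max_le (by simp; positivity) ?_)))
        rw [sub_sub_sub_cancel_left, ← mul_sub, abs_mul, abs_of_pos (inv_pos.2 hρ), dist_comm, dist_eq_norm]
        exact mul_le_mul_of_nonneg_left ((abs_norm_sub_norm_le _ _).trans_eq (by rw [sub_sub_sub_cancel_right]))
          (inv_pos.2 hρ).le) ((mul_inv_lt_iff₀ hρ).2 (by simpa using ha))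
    have ha' : a ∈ Icc (-ρ) ρ := abs_le.1 ha.le
    have f1 : ∀ y ∉ closedBall c (2 * ρ), H.f y = y := fun y hy => by simp [hH, b3 y hy]
    have g1 : ∀ y ∉ closedBall c (2 * ρ), H.g y = y := fun y hy => by
      simpa only [f1 y hy] using H.li y trivial
    have f2 : MapsTo H.f k.O' k.O' := fun y hy => hH y ▸ b5 a ha' y hy
    have g2 : MapsTo H.g k.O' k.O' := fun y hy => by
      by_cases h : H.g y ∈ closedBall c (2 * ρ)
      · refine hB ⟨h, ?_⟩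
        have := congrFun ((hH _).symm.trans (H.ri y trivial)) 2
        have h2 : 0 ≤ y 2 := ro_sub k.opn' hy
        simpa [up, e0, ← this] using h2
      · rwa [← f1 _ h, H.ri y trivial]
    have m : ∀ f : V → V, MapsTo f k.O' k.O' →
        MapsTo (fun x => if x ∈ k.O then k.e.g (f (k.e.f x)) else x) W W := fun f h x hx => by
      by_cases a : x ∈ k.O
      · simpa only [if_pos a] using ro_sub k.opn (k.e.mg (h (k.e.mf a)))
      · simpa only [if_neg a] using hx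
    have i : ∀ f f' : V → V, MapsTo f k.O' k.O' → (∀ y, f' (f y) = y) → ∀ x,
        (fun x => if x ∈ k.O then k.e.g (f' (k.e.f x)) else x)
          (if x ∈ k.O then k.e.g (f (k.e.f x)) else x) = x := fun f f' h h' x => by
      by_cases a : x ∈ k.O
      · simp only [if_pos a, if_pos (k.e.mg (h (k.e.mf a))), k.e.ri _ (h (k.e.mf a)), h', k.e.li x a]
      · simp only [if_neg a]
    exact ⟨⟨_, _, ext _ H.pf f2 f1, ext _ H.pg g2 g1, m _ f2, m _ g2,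
      fun x _ => i _ _ f2 (fun y => H.li y trivial) x, fun x _ => i _ _ g2 (fun y => H.ri y trivial) x⟩,
      fun x _ => by simp only [hH]⟩

variable {Γ : Type} [Group Γ] {G U : Set E} {c : E → E → Γ} {l : E → ℝ} {η : ℝ}

theorem fam_sub (h : Fam W dW G c U l η) : U ⊆ W := fun x hx =>
  let ⟨k, h1, _⟩ := h.ch x hx
  ro_sub k.opn h1

/-- transport of a family along a PL homeomorphism -/
theorem fam_pre (h : Fam W dW G c U l η) (hc : Coc G c) (q : PLEquiv W W)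
    (hd : ∀ x ∈ W, q.f x ∈ dW ↔ x ∈ dW) (hU : ∀ x ∈ W, q.f x ∈ U ↔ x ∈ U)
    (hG : ∀ x ∈ W, q.f x ∈ G → x ∈ G) {H : E × ℝ → E} (hH : ContinuousOn H (W ×ˢ Icc 0 1))
    (h0 : ∀ x ∈ W, H (x, 0) = x) (h1 : ∀ x ∈ W, H (x, 1) = q.f x) (hm : MapsTo H (G ×ˢ Icc 0 1) G)
    {l' : E → ℝ} (hl : ∀ x ∈ U, l' x = l (q.f x)) : Fam W dW G c U l' η := by
  have s := fam_sub h
  have key : ∀ P : ℝ → Prop, {x | x ∈ U ∧ P (l' x)} = q.g '' {x | x ∈ U ∧ P (l x)} := fun P => by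
    refine Subset.antisymm (fun x hx => ⟨_, ⟨(hU x (s hx.1)).2 hx.1, hl x hx.1 ▸ hx.2⟩, q.li x (s hx.1)⟩) ?_
    rintro _ ⟨x, hx, rfl⟩
    have := (hU _ (q.mg (s hx.1))).1 (by rw [q.ri x (s hx.1)]; exact hx.1)
    exact ⟨this, by rw [hl _ this, q.ri x (s hx.1)]; exact hx.2⟩
  refine ⟨h.pos, fun x hx => ?_, fun a ha => ?_, fun a ha => ?_⟩
  · obtain ⟨k, a1, a2, a3⟩ := h.ch _ ((hU x (s hx)).2 hx)
    exact ⟨pre k q hd, ⟨s hx, a1⟩, fun y hy => (hU y hy.1).1 (a2 hy.2), fun y hy =>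
      (a3 _ hy.2).trans (hl y ((hU y hy.1).1 (a2 hy.2))).symm⟩
  · rw [key fun v => |v| ≤ a]
    exact (h.cpt a ha).image_of_continuousOn (q.pg.1.mono fun x hx => s hx.1)
  · obtain ⟨e1, e2, e3, e4⟩ := h.ess a ha
    rw [key fun v => v = a]
    set D := {x | x ∈ U ∧ l x = a}
    have e5 : q.g '' D ∩ dW = q.g '' (D ∩ dW) := by
      refine Subset.antisymm ?_ ?_
      · rintro _ ⟨⟨x, hx, rfl⟩, h'⟩
        exact ⟨x, ⟨hx, q.ri x (e2 hx) ▸ (hd _ (q.mg (e2 hx))).2 h'⟩, rfl⟩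
      · rintro _ ⟨x, hx, rfl⟩
        exact ⟨⟨x, hx.1, rfl⟩, (hd _ (q.mg (e2 hx.1))).1 (by rw [q.ri x (e2 hx.1)]; exact hx.2)⟩
    have e6 : q.g '' (D ∩ dW) ⊆ W := by rintro _ ⟨x, hx, rfl⟩; exact q.mg (e2 hx.1)
    have e7 : q.g '' (D ∩ dW) ⊆ G := by
      rintro _ ⟨x, hx, rfl⟩
      exact hG _ (q.mg (e2 hx.1)) (by rw [q.ri x (e2 hx.1)]; exact e3 hx)
    rw [Ess, e5]
    refine ⟨e1.map (q.symm.restrImage e2), by rintro _ ⟨x, hx, rfl⟩; exact q.mg (e2 hx), e7,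
      fun ⟨b, hb⟩ => e4 ?_⟩
    obtain ⟨b', hb'⟩ := hc.homotopy (hH.mono (prod_mono_left e6)) (hm.mono_left (prod_mono_left e7))
      (hb.congr fun x hx => by
        filter_upwards [self_mem_nhdsWithin] with y hy
        rw [h0 x (e6 hx), h0 y (e6 hy)])
    refine ⟨_, (hb'.comp (q.pg.1.mono (inter_subset_left.trans e2)) (mapsTo_image _ _)).congr fun x hx => ?_⟩
    filter_upwards [self_mem_nhdsWithin] with y hy
    rw [h1 _ (q.mg (e2 hx.1)), h1 _ (q.mg (e2 hy.1)), q.ri x (e2 hx.1), q.ri y (e2 hy.1)]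

end Crest.Agent.X212.Gp83
end

-- ▼ part X212/Deh83/Push
section

/-!
# X212 / Deh83 (helper83), part 1: pushing a part of the boundary into the interior
-/

set_option autoImplicit false
set_option linter.unusedSectionVars false

open Set Metric Topology Filter

namespace Crest.Agent.X212.Deh83

open Crest.Agent.R096 Crest.Agent.R096.Ce_537 Crest.Agent.X212.Lad50 Crest.Agent.X212.Gp83
open Crest.Agent.X212.Prd34 (V up)
open Crest.Agent.X212.Dsc4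

variable {E : Type} [NormedAddCommGroup E] [NormedSpace ℝ E] {W dW A K : Set E} {δ : E → ℝ}

/-- an injective PL self-map that moves boundary points only into the interior -/
structure Pu (W dW : Set E) (δ : E → ℝ) (Φ : E → E) : Prop where
  pl : PLOn Φ W
  inj : InjOn Φ W
  maps : MapsTo Φ W W
  bd : ∀ x ∈ W, Φ x ∈ dW → Φ x = x
  fix : ∀ x ∈ dW, δ x ≤ 0 → Φ x = x

theorem Pu.comp {Φ Ψ : E → E} (h : Pu W dW δ Φ) (h' : Pu W dW δ Ψ) : Pu W dW δ fun x => Φ (Ψ x) :=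
  ⟨h.pl.comp h'.pl h'.maps, h.inj.comp h'.inj h'.maps, h.maps.comp h'.maps, fun x hx e => by
    have a := h.bd _ (h'.maps hx) e
    exact a.trans (h'.bd x hx (a ▸ e)), fun x hx e => by rw [h'.fix x hx e, h.fix x hx e]⟩

theorem push_loc {x : E} (k₀ : Ch W dW) (h₀ : x ∈ k₀.O) (hx : x ∈ dW) (hδ : PLOn δ A)
    (hA : A ∈ 𝓝[dW] x) :
    ∃ Φ, Pu W dW δ Φ ∧ ∀ᶠ y in 𝓝[W] x, y ∈ dW → 0 < δ y → Φ y ∉ dW := by
  classical
  obtain ⟨k, a1, a2, -⟩ := exists_restr k₀ h₀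
    (mem_nhdsWithin_of_mem_nhds (eventually_nhdsWithin_iff.1 hA))
  set z := k.e.f x
  have z2 : z 2 = 0 := (k.bd x a1).1 hx
  obtain ⟨r, hr, hB : closedBall z r ∩ up ⊆ k.O'⟩ :=
    (nhdsWithin_hasBasis nhds_basis_closedBall up).mem_iff.1 (ro_nhds k.opn' (k.e.mf a1))
  let π : V → V := fun w => ![z 0 + clp r (w 0 - z 0), z 1 + clp r (w 1 - z 1), 0]
  have c1 : ∀ t, |clp r t| ≤ r := fun t =>
    abs_le.2 ⟨le_max_left _ _, max_le (by linarith) (min_le_left _ _)⟩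
  have c2 : ∀ t, |t| ≤ r → clp r t = t := fun t ht => by
    rw [clp, min_eq_right (abs_le.1 ht).2, max_eq_right (abs_le.1 ht).1]
  have c3 : ∀ i, PLOn (fun w : V => z i + clp r (w i - z i)) univ := fun i =>
    pl_add (plOn_const _ _) (pl_max (plOn_const _ _) (pl_min (plOn_const _ _)
      (pl_sub (pl_coord i _) (plOn_const _ _))))
  have p1 : ∀ w, π w ∈ k.O' := fun w => hB ⟨by
    rw [mem_closedBall_iff_norm, pi_norm_le_iff_of_nonneg hr.le]
    intro i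
    fin_cases i <;> simp [π, c1, z2, hr.le], le_refl (0 : ℝ)⟩
  have p2 : ∀ w, k.e.g (π w) ∈ A := fun w =>
    (a2 (k.e.mg (p1 w))).2 ((k.bd _ (k.e.mg (p1 w))).2 (by rw [k.e.ri _ (p1 w)]; rfl))
  have p3 : ∀ w ∈ closedBall z r, w 2 = 0 → π w = w := fun w hw e => by
    have : ∀ i, clp r (w i - z i) = w i - z i := fun i =>
      c2 _ ((norm_le_pi_norm (w - z) i).trans (mem_closedBall_iff_norm.1 hw))
    ext i
    fin_cases i
    · simp [π, this]
    · simp [π, this]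
    · exact e.symm
  let l : V → ℝ := fun w => max 0 (min (δ (k.e.g (π w))) (2⁻¹ * (r - ‖w - z‖)))
  let e2 : V := Pi.single 2 1
  have n2 : ‖e2‖ = 1 := by simp [e2, Pi.norm_single]
  let φ : V → V := fun w => w + l w • e2
  have l0 : ∀ w, 0 ≤ l w := fun w => le_max_left _ _
  have l1 : ∀ w ∉ closedBall z r, φ w = w := fun w hw => by
    rw [mem_closedBall_iff_norm, not_le] at hw
    have : l w = 0 := max_eq_left ((min_le_right _ _).trans (by linarith))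
    simp [φ, this]
  have f2 : ∀ w, φ w 2 = w 2 + l w := fun w => by simp [φ, e2]
  have f1 : PLOn φ univ := pl_add (plOn_id _) (pl_smul_const (pl_max (plOn_const _ _) (pl_min
    (hδ.comp (k.e.pg.comp (pl_vec3 (c3 0) (c3 1) (plOn_const _ _)) fun w _ => p1 w) fun w _ => p2 w)
    (pl_mul _ (pl_sub (plOn_const _ _) (pl_norm (pl_sub (plOn_id _) (plOn_const _ _))))))) _)
  have f3 : MapsTo φ k.O' k.O' := fun w hw => by
    by_cases h : w ∈ closedBall z r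
    · refine hB ⟨?_, (f2 w).ge.trans' (add_nonneg (ro_sub k.opn' hw) (l0 w))⟩
      rw [mem_closedBall_iff_norm] at h ⊢
      have : l w ≤ 2⁻¹ * (r - ‖w - z‖) := max_le (by linarith) (min_le_right _ _)
      rw [add_sub_right_comm]
      refine (norm_add_le _ _).trans ?_
      rw [norm_smul, n2, Real.norm_of_nonneg (l0 w)]
      linarith
    · rwa [l1 w h]
  have f4 : Function.Injective φ := fun w w' e => by
    have e0 : w 0 = w' 0 := by simpa [φ, e2] using congrFun e 0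
    have e1 : w 1 = w' 1 := by simpa [φ, e2] using congrFun e 1
    have e3 : w - w' = (l w' - l w) • e2 := by
      rw [sub_smul, sub_eq_sub_iff_add_eq_add, add_comm _ w']
      exact e
    have e4 : |l w' - l w| ≤ 2⁻¹ * ‖w - w'‖ := by
      refine (abs_max_sub_max_le_max _ _ _ _).trans (max_le (by simp)
        ((abs_min_sub_min_le_max _ _ _ _).trans (max_le (by simp [π, e0, e1]) ?_)))
      rw [← mul_sub, abs_mul, abs_of_pos (by norm_num), sub_sub_sub_cancel_left]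
      exact mul_le_mul_of_nonneg_left
        ((abs_norm_sub_norm_le _ _).trans_eq (by rw [sub_sub_sub_cancel_right])) (by norm_num)
    have e5 := congrArg norm e3
    rw [norm_smul, n2, mul_one, Real.norm_eq_abs] at e5
    exact sub_eq_zero.1 (norm_le_zero_iff.1 (by linarith))
  have cB : IsCompact (closedBall z r ∩ up) := (isCompact_closedBall _ _).inter_right
    (isClosed_le continuous_const (continuous_apply 2))
  have m : ∀ y ∈ k.O, k.e.g (φ (k.e.f y)) ∈ k.O := fun y hy => k.e.mg (f3 (k.e.mf hy))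
  have b : ∀ y ∈ k.O, k.e.g (φ (k.e.f y)) ∈ dW ↔ k.e.f y 2 + l (k.e.f y) = 0 := fun y hy => by
    rw [k.bd _ (m y hy), k.e.ri _ (f3 (k.e.mf hy)), f2]
  have i : ∀ y ∈ k.O, l (k.e.f y) = 0 → k.e.g (φ (k.e.f y)) = y := fun y hy e => by
    simp [φ, e, k.e.li y hy]
  refine ⟨fun y => if y ∈ k.O then k.e.g (φ (k.e.f y)) else y, ⟨pl_if k.opn
    (cB.image_of_continuousOn (k.e.pg.1.mono hB)).isClosed
    (by rintro _ ⟨y, hy, rfl⟩; exact k.e.mg (hB hy))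
    (k.e.pg.comp (f1.comp k.e.pf (mapsTo_univ _ _)) (f3.comp k.e.mf)) (plOn_id W)
    (fun y hy => if_pos hy) fun y _ hy => ?_, fun y _ y' _ e => ?_, fun y hy => ?_, fun y _ e => ?_,
    fun y hy e => ?_⟩, ?_⟩
  · split_ifs with h
    · rw [l1 _ fun h' => hy ⟨_, ⟨h', ro_sub k.opn' (k.e.mf h)⟩, k.e.li y h⟩, k.e.li y h]
    · rfl
  · by_cases h : y ∈ k.O <;> by_cases h' : y' ∈ k.O <;> simp only [h, h', if_true, if_false] at e
    · exact k.e.injOn h h' (f4 (k.e.symm.injOn (f3 (k.e.mf h)) (f3 (k.e.mf h')) e))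
    · exact absurd (e ▸ m y h) h'
    · exact absurd (e ▸ m y' h') h
    · exact e
  · by_cases h : y ∈ k.O
    · simpa only [if_pos h] using ro_sub k.opn (m y h)
    · simpa only [if_neg h] using hy
  · split_ifs at e ⊢ with h
    · have : 0 ≤ k.e.f y 2 := ro_sub k.opn' (k.e.mf h)
      exact i y h (by linarith [(b y h).1 e, l0 (k.e.f y)])
    · rfl
  · split_ifs with h
    · by_cases h' : k.e.f y ∈ closedBall z r
      · refine i y h (max_eq_left ((min_le_left _ _).trans ?_))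
        rwa [p3 _ h' ((k.bd y h).1 hy), k.e.li y h]
      · rw [l1 _ h', k.e.li y h]
    · rfl
  · filter_upwards [ro_nhds (ro_pre k.opn k.e.pf.1 isOpen_ball) ⟨a1, mem_ball_self hr⟩] with y h hy e
    have h2 := (k.bd y h.1).1 hy
    rw [if_pos h.1, b y h.1, h2, zero_add]
    refine (lt_max_of_lt_right (lt_min ?_ ?_)).ne'
    · rwa [p3 _ (ball_subset_closedBall h.2) h2, k.e.li y h.1]
    · linarith [mem_ball_iff_norm.1 h.2]

/-- **pushing** the part `δ > 0` of a compact subset of the boundary into the interior -/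
theorem push (hW : MfE W dW) (hK : IsCompact K) (hKd : K ⊆ dW) (hδ : PLOn δ A)
    (hA : ∀ x ∈ K, A ∈ 𝓝[dW] x) : ∃ Φ, Pu W dW δ Φ ∧ ∀ x ∈ K, 0 < δ x → Φ x ∉ dW := by
  have := hK.induction_on (p := fun s => ∃ Φ, Pu W dW δ Φ ∧ ∀ x ∈ s, x ∈ dW → 0 < δ x → Φ x ∉ dW)
    ⟨fun x => x, ⟨plOn_id _, fun _ _ _ _ h => h, fun _ h => h, fun _ _ _ => rfl, fun _ _ _ => rfl⟩,
      fun _ h => h.elim⟩ (fun s t h ⟨Φ, a, b⟩ => ⟨Φ, a, fun x hx => b x (h hx)⟩)
    (fun s t ⟨Φ, a, b⟩ ⟨Ψ, a', b'⟩ => ⟨_, a.comp a', fun x hx hd h e => by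
      have e1 := a.bd _ (a'.maps (hW.1 hd)) e
      have e2 := a'.bd x (hW.1 hd) (e1 ▸ e)
      rcases hx with hx | hx
      · exact b x hx hd h (e2 ▸ e)
      · exact b' x hx hd h (e1 ▸ e)⟩) fun x hx => by
      obtain ⟨k, hk⟩ := hW.2 x (hW.1 (hKd hx))
      obtain ⟨Φ, a, b⟩ := push_loc k hk (hKd hx) hδ (hA x hx)
      exact ⟨_, nhdsWithin_mono x (hKd.trans hW.1) b, Φ, a, fun _ h => h⟩
  exact this.imp fun Φ h => ⟨h.1, fun x hx => h.2 x hx (hKd hx)⟩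

end Crest.Agent.X212.Deh83
end

-- ▼ part X212/Deh83/Main
section

/-!
# X212 / Deh83 (helper83), part 2: Dehn's lemma from the loop theorem
-/

set_option autoImplicit false
set_option linter.unusedSectionVars false

open Set Metric Topology Filter

namespace Crest.Agent.X212.Deh83

open Crest.Agent.R096 Crest.Agent.R096.Ce_537 Crest.Agent.X212.Lad50 Crest.Agent.X212.Gp83
open Crest.Agent.R096.Cx_609 (equivOfInjOn)
open Crest.Agent.R096.Cb_609 (isBall_real2)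
open Crest.Agent.X212.Prd34 (V P up DehnStmt)
open Crest.Agent.X212.Dsc4 Crest.Agent.X212.Srf12
open Crest.Agent.X212.Lev33 (Coc Prim)

section

variable {E F : Type*} [NormedAddCommGroup E] [NormedSpace ℝ E] [NormedAddCommGroup F]
  [NormedSpace ℝ F] {S : Set E} {h : P → E}

theorem isCompact_box (u v : ℝ) : IsCompact {y : P | |y 0| ≤ 1 ∧ y 1 ∈ Icc u v} := by
  refine (isCompact_Icc (a := (![-1, u] : P)) (b := ![1, v])).of_isClosed_subset
    ((isClosed_le (continuous_apply 0).abs continuous_const).inter (isClosed_Icc.preimage (continuous_apply 1)))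
    fun y hy => ⟨fun i => ?_, fun i => ?_⟩ <;> fin_cases i
  exacts [(abs_le.1 hy.1).1, hy.2.1, (abs_le.1 hy.1).2, hy.2.2]

theorem box_sub (u v : ℝ) :
    {y : P | |y 0| ≤ 1 ∧ y 1 ∈ Icc u v} ⊆ {y | |y 0| ≤ 1 ∧ |y 1| ≤ max |u| |v|} :=
  fun _ hy => ⟨hy.1, abs_le_max_abs_abs hy.2.1 hy.2.2⟩

theorem ann_int (hh : Ann S h) {y : P} (hy : |y 0| ≤ 1) (m : ℤ) : h ![y 0, y 1 - m] = h y :=
  (hh.fib ![y 0, y 1 - m] y hy hy).2 ⟨rfl, -m, by simp⟩

/-- maps that are PL on the cover of an annulus -/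
theorem ann_pl [FiniteDimensional ℝ E] (hh : Ann S h) {g : P → F}
    (hg : ∀ R : ℝ, PLOn g {y | |y 0| ≤ 1 ∧ |y 1| ≤ R})
    (hf : ∀ y y', |y 0| ≤ 1 → |y' 0| ≤ 1 → h y = h y' → g y = g y') :
    ∃ f : E → F, PLOn f S ∧ ∀ y, |y 0| ≤ 1 → f (h y) = g y := by
  have k : ∀ y, |y 0| ≤ 1 → g (Function.invFunOn h {y | |y 0| ≤ 1} (h y)) = g y := fun y hy =>
    hf _ _ (Function.invFunOn_mem (s := {y : P | |y 0| ≤ 1}) ⟨y, hy, rfl⟩) hy
      (Function.invFunOn_eq ⟨y, hy, rfl⟩)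
  have c : ∀ u : ℝ, IsClosed (h '' {y : P | |y 0| ≤ 1 ∧ y 1 ∈ Icc u (u + 1 / 2)}) := fun u =>
    ((isCompact_box _ _).image_of_continuousOn ((hh.pl _).mono (box_sub _ _)).1).isClosed
  have p : ∀ u : ℝ, PLOn (fun z => g (Function.invFunOn h {y | |y 0| ≤ 1} z))
      (h '' {y : P | |y 0| ≤ 1 ∧ y 1 ∈ Icc u (u + 1 / 2)}) := fun u => by
    have cv : Convex ℝ {y : P | |y 0| ≤ 1 ∧ y 1 ∈ Icc u (u + 1 / 2)} := by
      simp only [abs_le]
      exact ((convex_Icc (-1 : ℝ) 1).linear_preimage (LinearMap.proj 0 : P →ₗ[ℝ] ℝ)).inter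
        ((convex_Icc u (u + 1 / 2)).linear_preimage (LinearMap.proj 1 : P →ₗ[ℝ] ℝ))
    let e := equivOfInjOn cv.finConv (isCompact_box _ _).isClosed ((hh.pl _).mono (box_sub _ _))
      fun y hy y' hy' e => by
        obtain ⟨e0, j, hj⟩ := (hh.fib y y' hy.1 hy'.1).1 e
        have : |(j : ℝ)| < 1 := abs_lt.2 ⟨by linarith [hy.2.1, hy'.2.2], by linarith [hy.2.2, hy'.2.1]⟩
        rw [Int.abs_lt_one_iff.1 (by exact_mod_cast this : |j| < 1), Int.cast_zero, sub_eq_zero] at hj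
        ext i
        fin_cases i
        exacts [e0, hj]
    refine (((hg _).mono (box_sub _ _)).comp e.pg e.mg).congr ?_
    rintro _ ⟨y, hy, rfl⟩
    exact (k y hy.1).trans (congrArg g (e.li y hy)).symm
  refine ⟨_, ((p 0).union (p (1 / 2)) (c _) (c _)).mono ?_, k⟩
  rw [← hh.img]
  rintro _ ⟨y, hy, rfl⟩
  have h1 := Int.floor_le (y 1)
  have h2 := Int.lt_floor_add_one (y 1)
  rcases le_total (y 1 - ⌊y 1⌋) (1 / 2) with a | a
  · exact Or.inl ⟨![y 0, y 1 - ⌊y 1⌋], ⟨hy, sub_nonneg.2 h1, a.trans_eq (zero_add _).symm⟩, ann_int hh hy _⟩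
  · exact Or.inr ⟨![y 0, y 1 - ⌊y 1⌋], ⟨hy, a, by show y 1 - ⌊y 1⌋ ≤ _; linarith⟩, ann_int hh hy _⟩

/-- two parametrised annuli are equivalent -/
theorem ann_equiv [FiniteDimensional ℝ E] [FiniteDimensional ℝ F] (hh : Ann S h) {A : Set F} {g : P → F}
    (hg : Ann A g) : ∃ θ : PLEquiv S A, ∀ y, |y 0| ≤ 1 → θ.f (h y) = g y ∧ θ.g (g y) = h y := by
  obtain ⟨f, f1, f2⟩ := ann_pl hh hg.pl fun y y' a b e => (hg.fib y y' a b).2 ((hh.fib y y' a b).1 e)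
  obtain ⟨f', g1, g2⟩ := ann_pl hg hh.pl fun y y' a b e => (hh.fib y y' a b).2 ((hg.fib y y' a b).1 e)
  refine ⟨⟨f, f', f1, g1, ?_, ?_, ?_, ?_⟩, fun y hy => ⟨f2 y hy, g2 y hy⟩⟩
  · rw [← hh.img, ← hg.img]
    rintro _ ⟨y, hy, rfl⟩
    exact ⟨y, hy, (f2 y hy).symm⟩
  · rw [← hh.img, ← hg.img]
    rintro _ ⟨y, hy, rfl⟩
    exact ⟨y, hy, (g2 y hy).symm⟩
  · rw [← hh.img]
    rintro _ ⟨y, hy, rfl⟩
    rw [f2 y hy, g2 y hy]
  · rw [← hg.img]
    rintro _ ⟨y, hy, rfl⟩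
    rw [g2 y hy, f2 y hy]

theorem ann_mirror (hh : Ann S h) : Ann S fun y => h ![-y 0, y 1] := by
  refine ⟨fun R => (hh.pl R).comp (pl_vec2 (pl_neg (pl_coord 0 _)) (pl_coord 1 _)) fun y hy =>
    ⟨(abs_neg _).trans_le hy.1, hy.2⟩, hh.img ▸ Subset.antisymm ?_ ?_, fun y y' a b =>
    (hh.fib ![-y 0, y 1] ![-y' 0, y' 1] ((abs_neg _).trans_le a) ((abs_neg _).trans_le b)).trans
      (and_congr_left' neg_inj)⟩
  · rintro _ ⟨y, hy, rfl⟩
    exact ⟨![-y 0, y 1], (abs_neg (y 0)).trans_le hy, rfl⟩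
  · rintro _ ⟨y, hy, rfl⟩
    exact ⟨![-y 0, y 1], (abs_neg (y 0)).trans_le hy, congrArg h (by ext i; fin_cases i <;> simp)⟩

/-- the generator of the first cohomology of an annulus -/
theorem exists_coc (hh : Ann S h) : ∃ c : E → E → Multiplicative ℤ, Coc S c ∧
    ∀ t : ℝ, |t| ≤ 1 → ¬ ∃ b, Prim (h '' {y | y 0 = t}) c b := by
  let ι : E → P := Function.invFunOn h {y | |y 0| ≤ 1}
  have i1 : ∀ x ∈ S, |ι x 0| ≤ 1 ∧ h (ι x) = x := fun x hx =>
    ⟨Function.invFunOn_mem (s := {y : P | |y 0| ≤ 1}) (hh.img.ge hx), Function.invFunOn_eq (hh.img.ge hx)⟩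
  have near : ∀ x ∈ S, ∀ᶠ y in 𝓝[S] x, ∃ m : ℤ, ι y 1 - ι x 1 - m ∈ Ico (-(1 / 4) : ℝ) (1 / 4) := by
    intro x hx
    have c := ((isCompact_box (ι x 1 + 1 / 4) (ι x 1 + 3 / 4)).image_of_continuousOn
      ((hh.pl _).mono (box_sub _ _)).1).isClosed
    filter_upwards [self_mem_nhdsWithin, mem_nhdsWithin_of_mem_nhds (c.isOpen_compl.mem_nhds (x := x) (by
      rintro ⟨y, hy, e⟩
      obtain ⟨-, j, hj⟩ := (hh.fib _ _ hy.1 (i1 x hx).1).1 (e.trans (i1 x hx).2.symm)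
      have h1 : (0 : ℝ) < j := by linarith [hy.2.1]
      have h2 : (j : ℝ) < 1 := by linarith [hy.2.2]
      have h3 : 0 < j := by exact_mod_cast h1
      have h4 : j < 1 := by exact_mod_cast h2
      omega))] with y hy h'
    have h1 := Int.floor_le (ι y 1 - ι x 1 + 1 / 4)
    have h2 := Int.lt_floor_add_one (ι y 1 - ι x 1 + 1 / 4)
    refine ⟨⌊ι y 1 - ι x 1 + 1 / 4⌋, by linarith, lt_of_not_ge fun a => h' ⟨![ι y 0, ι y 1 - ⌊ι y 1 - ι x 1 + 1 / 4⌋], ⟨(i1 y hy).1, ?_, ?_⟩,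
      (ann_int hh (i1 y hy).1 ⌊ι y 1 - ι x 1 + 1 / 4⌋).trans (i1 y hy).2⟩⟩
    · show _ ≤ ι y 1 - _
      linarith
    · show ι y 1 - _ ≤ _
      linarith
  refine ⟨fun x y => .ofAdd ⌊ι y 1 - ι x 1 + 1 / 2⌋, fun x hx => ?_, fun t ht ⟨b, hb⟩ => ?_⟩
  · filter_upwards [self_mem_nhdsWithin, near x hx] with y hy ⟨m, hm⟩
    filter_upwards [near y hy] with z ⟨n, hn⟩
    rw [← ofAdd_add, (Int.floor_eq_iff (z := m + n)).2 ⟨by push_cast; linarith [hm.1, hn.1],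
        by push_cast; linarith [hm.2, hn.2]⟩,
      (Int.floor_eq_iff (z := m)).2 ⟨by linarith [hm.1], by linarith [hm.2]⟩,
      (Int.floor_eq_iff (z := n)).2 ⟨by linarith [hn.1], by linarith [hn.2]⟩]
  · have l := Ann83.ann_loop hh ht
    have m : ∀ s, h ![t, s] ∈ S := fun s => hh.img.le ⟨_, ht, rfl⟩
    choose n hn using fun s => ((hh.fib _ ![t, s] (i1 _ (m s)).1 ht).1 (i1 _ (m s)).2).2
    replace hn : ∀ s, ι (h ![t, s]) 1 = s + n s := fun s => (sub_eq_iff_eq_add'.1 (hn s))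
    have p : Prim univ (fun s s' => Multiplicative.ofAdd ⌊ι (h ![t, s']) 1 - ι (h ![t, s]) 1 + 1 / 2⌋)
        fun s => .ofAdd (n s) := fun s _ => by
      filter_upwards [mem_nhdsWithin_of_mem_nhds
        (Ioo_mem_nhds (a := s - 1 / 2) (b := s + 1 / 2) (x := s) (by linarith) (by linarith))] with s' hs
      rw [← ofAdd_add, hn, hn, (Int.floor_eq_iff (z := n s' - n s)).2
        ⟨by push_cast; linarith [hs.1], by push_cast; linarith [hs.2]⟩, add_sub_cancel]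
    have e : h ![t, 1] = h ![t, 0] := (l.fib 1 0).2 ⟨1, by simp⟩
    have q := (hb.comp (Ann83.continuous_of_pl l.pl).continuousOn fun s _ => ⟨_, rfl, rfl⟩).uniq p
      isPreconnected_univ (mem_univ 0) (mem_univ 1)
    simp only [e, inv_mul_cancel_right, EmbeddingLike.apply_eq_iff_eq] at q
    have h1 := hn 1
    rw [e, hn, q] at h1
    linarith

end

/-- a planar model of the annulus; the level `a` is the unit square -/
theorem model (a : ℝ) : ∃ (h : P → ℝ × ℝ) (ρ : ℝ → ℝ), Ann (h '' {y | |y 0| ≤ 1}) h ∧ StrictAnti ρ ∧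
    ρ a = 1 ∧ (∀ y, ‖h y‖ = ρ (y 0)) ∧ ∀ z : ℝ × ℝ, a ≤ 1 → ρ 1 ≤ ‖z‖ → ‖z‖ ≤ 1 → ∃ y, h y = z := by
  have r0 : rho (a - a) = 1 := by rw [rho_of_le (by simp)]; ring
  have n : ∀ w : P, ‖(w 0, w 1)‖ = ‖w‖ := fun w =>
    (norm_vec2 _ _).symm.trans (congrArg norm (by ext i; fin_cases i <;> rfl))
  refine ⟨fun y => (pol ![y 1, a - y 0] 0, pol ![y 1, a - y 0] 1), fun t => rho (a - t),
    ⟨fun R => ?_, rfl, fun y y' _ _ => ?_⟩, fun s t h => rho_strictMono (by linarith), r0,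
    fun y => (n _).trans (norm_pol _), fun z ha h1 h2 => ?_⟩
  · have p := plOn_of_locPL (locPL_comp locPL_pol (locPL_of_plOn (pl_vec2 (pl_coord 1 _)
      (pl_sub (plOn_const a _) (pl_coord 0 _))) univ) (mapsTo_univ _ _)) (isCompact_box (-R) R) (subset_univ _)
    exact (pl_prod (pl_apply p 0) (pl_apply p 1)).mono fun y hy => ⟨hy.1, abs_le.1 hy.2⟩
  · rw [and_comm, ← sub_right_inj (a := a)]
    refine Iff.trans ⟨fun e => ?_, fun e => by rw [e]⟩ (pol_fib ![y 1, a - y 0] ![y' 1, a - y' 0])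
    ext i
    fin_cases i
    exacts [congrArg Prod.fst e, congrArg Prod.snd e]
  · obtain ⟨t, -, e⟩ := intermediate_value_Icc (a := a - 1) (b := a - a) (by linarith)
      continuous_rho.continuousOn ⟨h1, h2.trans_eq r0.symm⟩
    obtain ⟨s, hs⟩ := pol_sur t ![z.1, z.2] ((norm_vec2 _ _).trans e.symm)
    exact ⟨![a - t, s], by simp [hs]⟩

theorem sub_ball {D J : Set (ℝ × ℝ)} (hD : IsCompact D) (hU : IsOpen (D \ J)) (hJ : J ⊆ ball 0 1) :
    D ⊆ ball 0 1 := fun z hz => by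
  obtain ⟨w, hw, hm⟩ := hD.exists_isMaxOn ⟨z, hz⟩ continuous_norm.continuousOn
  refine mem_ball_zero_iff.2 ((hm hz).trans_lt (lt_of_not_ge fun h => ?_))
  have h1 : ∀ᶠ t in 𝓝 (1 : ℝ), t • w ∈ D \ J := (by fun_prop : Continuous fun t : ℝ => t • w).continuousAt
    (hU.mem_nhds (by simpa using ⟨hw, fun h' => not_lt.2 h (mem_ball_zero_iff.1 (hJ h'))⟩))
  obtain ⟨t, h2, h3⟩ := ((h1.filter_mono nhdsWithin_le_nhds).and (self_mem_nhdsWithin (s := Ioi 1))).exists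
  have h4 : ‖t • w‖ ≤ ‖w‖ := hm h2.1
  rw [norm_smul, Real.norm_of_nonneg (zero_le_one.trans h3.le)] at h4
  nlinarith [show 1 < t from h3]

/-- an essential disc with boundary above the level `a` gives a disc bounded by the level `a` -/
theorem add {E : Type} [NormedAddCommGroup E] [NormedSpace ℝ E] [FiniteDimensional ℝ E]
    {M dM A D : Set E} {g : P → E} {Γ : Type} [Group Γ] {c : E → E → Γ} {a : ℝ}
    (hM : MfE M dM) (hg : Ann A g) (hA : A ⊆ dM) (ho : ROpen dM (g '' {y | |y 0| < 1})) (ha : |a| < 1)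
    (hc : Coc (g '' {y | |y 0| < 1}) c) (hD : Ess M dM (g '' {y | a < y 0 ∧ y 0 < 1}) c D) :
    ∃ D', IsBall 2 D' (g '' {y | y 0 = a}) ∧ D' ⊆ M ∧ D' ∩ dM = g '' {y | y 0 = a} := by
  classical
  obtain ⟨h, ρ, m1, m2, m3, m4, m5⟩ := model a
  obtain ⟨θ, hθ⟩ := ann_equiv m1 hg
  obtain ⟨a1, a2⟩ := abs_lt.1 ha
  have i1 : ∀ z, ρ 1 < ‖z‖ → ‖z‖ ≤ 1 → ∃ y, |y 0| < 1 ∧ h y = z := fun z h1 h2 => by
    obtain ⟨y, rfl⟩ := m5 z a2.le h1.le h2
    rw [m4] at h1 h2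
    exact ⟨y, abs_lt.2 ⟨a1.trans_le (m2.le_iff_ge.1 (h2.trans_eq m3.symm)), m2.lt_iff_gt.1 h1⟩, rfl⟩
  have i2 : ∀ z, ρ 1 < ‖z‖ → ‖z‖ ≤ 1 → z ∈ h '' {y | |y 0| ≤ 1} ∧ θ.f z ∈ g '' {y | |y 0| < 1} :=
    fun z h1 h2 => by
      obtain ⟨y, hy, rfl⟩ := i1 z h1 h2
      exact ⟨⟨y, hy.le, rfl⟩, y, hy, (hθ y hy.le).1.symm⟩
  have FA : g '' {y | |y 0| < 1} ⊆ A := hg.img ▸ image_mono fun y (hy : |y 0| < 1) => hy.le
  obtain ⟨e, he, he'⟩ := isBall_real2.exists_equiv hD.1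
  have sQ : sphere (0 : ℝ × ℝ) 1 ⊆ closedBall 0 1 := sphere_subset_closedBall
  have j1 : ∀ z ∈ sphere (0 : ℝ × ℝ) 1, e.f z ∈ A ∧ ρ 1 < ‖θ.g (e.f z)‖ ∧ ‖θ.g (e.f z)‖ < 1 := fun z hz => by
    obtain ⟨y, hy, e1⟩ := hD.2.2.1 (he.le ⟨z, hz, rfl⟩)
    have : |y 0| < 1 := abs_lt.2 ⟨a1.trans hy.1, hy.2⟩
    rw [← e1, (hθ y this.le).2, m4]
    exact ⟨FA ⟨y, this, rfl⟩, m2 hy.2, (m2 hy.1).trans_eq m3⟩
  obtain ⟨Δ, Φ, d1, d2, d3⟩ := Cor42.exists_disc (θ.pg.comp (e.pf.mono sQ) fun z hz => (j1 z hz).1)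
    fun z hz z' hz' e' => e.injOn (sQ hz) (sQ hz') (θ.symm.injOn (j1 z hz).1 (j1 z' hz').1 e')
  set J := (fun z => θ.g (e.f z)) '' sphere 0 1
  have d4 := sub_ball d2.isCompact d3 (by rintro _ ⟨z, hz, rfl⟩; exact mem_ball_zero_iff.2 (j1 z hz).2.2)
  rcases Cor42.sides d2.isClosed d3 (convex_closedBall 0 (ρ 1)).isPreconnected (disjoint_left.2 (by
    rintro _ h1 ⟨z, hz, rfl⟩
    exact not_lt.2 (mem_closedBall_zero_iff.1 h1) (j1 z hz).2.1)) with d5 | d5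
  swap
  · have k := fun z (hz : z ∈ closedBall (0 : ℝ × ℝ) 1) => i2 (Φ.f z)
      (lt_of_not_ge fun h1 => d5 (mem_closedBall_zero_iff.2 h1) (Φ.mf hz))
      (mem_ball_zero_iff.1 (d4 (Φ.mf hz))).le
    obtain ⟨b, hb⟩ := (hc.comp (θ.pf.comp Φ.pf fun z hz => (k z hz).1).1 fun z hz => (k z hz).2).prim_convex
      (convex_closedBall _ _)
    have mg : MapsTo e.g (D ∩ dM) (sphere 0 1) := fun x hx => he'.le ⟨x, hx, rfl⟩
    have k2 : ∀ x ∈ D ∩ dM, θ.f (Φ.f (e.g x)) = x := fun x hx => by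
      rw [d1 (mg hx), θ.ri _ (j1 _ (mg hx)).1, e.ri x hx.1]
    refine absurd ⟨fun x => b (e.g x), fun x hx => ?_⟩ hD.2.2.2
    filter_upwards [hb.comp (e.pg.1.mono inter_subset_left) (fun x hx => sQ (mg hx)) x hx,
      self_mem_nhdsWithin] with y h1 hy
    rwa [k2 x hx, k2 y hy] at h1
  set R := closedBall (0 : ℝ × ℝ) 1 \ (Δ \ J)
  have cR : IsCompact R := (isCompact_closedBall _ _).diff d3
  have r1 := fun z (hz : z ∈ R) => i2 z (lt_of_not_ge fun h1 => hz.2 (d5 (mem_closedBall_zero_iff.2 h1)))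
    (mem_closedBall_zero_iff.1 hz.1)
  have r2 : ∀ z ∈ closedBall (0 : ℝ × ℝ) 1, z ∉ R → z ∈ Δ := fun z hz h =>
    by_contra fun h' => h ⟨hz, fun h'' => h' h''.1⟩
  let φ : ℝ × ℝ → E := fun z => if z ∈ Δ then e.f (Φ.g z) else θ.f z
  have p1 : EqOn φ (fun z => e.f (Φ.g z)) Δ := fun z hz => if_pos hz
  have p2 : EqOn φ θ.f R := fun z hz => by
    by_cases h : z ∈ Δ
    · obtain ⟨w, hw, rfl⟩ : z ∈ J := by_contra fun h' => hz.2 ⟨h, h'⟩
      rw [p1 h, θ.ri _ (j1 w hw).1]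
      exact congrArg e.f ((congrArg Φ.g (d1 hw).symm).trans (Φ.li w (sQ hw)))
    · exact if_neg h
  have p3 : PLOn φ (closedBall 0 1) := (((e.pf.comp Φ.pg Φ.mg).congr p1).union
    ((θ.pf.mono fun z hz => (r1 z hz).1).congr p2) d2.isClosed cR.isClosed).mono fun z hz =>
      or_iff_not_imp_right.2 (r2 z hz)
  have p4 : ∀ z ∈ R, φ z ∈ dM := fun z hz => p2 hz ▸ hA (FA (r1 z hz).2)
  have p5 : ∀ z ∈ closedBall (0 : ℝ × ℝ) 1, φ z ∈ dM → z ∈ R := fun z hz h => ⟨hz, fun h' => by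
    rw [p1 h'.1] at h
    have : Φ.g z ∈ sphere (0 : ℝ × ℝ) 1 :=
      he'.le ⟨_, ⟨e.mf (Φ.mg h'.1), h⟩, e.li _ (Φ.mg h'.1)⟩
    exact h'.2 ⟨_, this, (d1 this).symm.trans (Φ.ri z h'.1)⟩⟩
  have p6 : InjOn φ (closedBall 0 1) := fun z hz z' hz' e' => by
    by_cases h : φ z ∈ dM
    · have h1 := p5 z hz h
      have h2 := p5 z' hz' (e' ▸ h)
      exact θ.injOn (r1 z h1).1 (r1 z' h2).1 (by rwa [← p2 h1, ← p2 h2])
    · have h1 := r2 z hz fun h' => h (p4 z h')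
      have h2 := r2 z' hz' fun h' => h (e' ▸ p4 z' h')
      exact (Φ.symm.trans e).injOn h1 h2 (((p1 h1).symm.trans e').trans (p1 h2))
  have p7 : MapsTo φ (closedBall 0 1) M := fun z hz => by
    by_cases h : z ∈ R
    · exact hM.1 (p4 z h)
    · rw [p1 (r2 z hz h)]
      exact hD.2.1 (e.mf (Φ.mg (r2 z hz h)))
  obtain ⟨Ψ, q1, q2⟩ := push (δ := fun x => 1 - ‖θ.g x‖) hM
    (cR.image_of_continuousOn (p3.1.mono sdiff_subset)) (by rintro _ ⟨z, hz, rfl⟩; exact p4 z hz)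
    (pl_sub (plOn_const 1 _) (pl_max (pl_abs (pl_fst θ.pg)) (pl_abs (pl_snd θ.pg)))) (by
      rintro _ ⟨z, hz, rfl⟩
      exact mem_of_superset (ro_nhds ho (p2 hz ▸ (r1 z hz).2)) FA)
  have s1 : ∀ z ∈ R, ‖θ.g (φ z)‖ = ‖z‖ := fun z hz => by rw [p2 hz, θ.li z (r1 z hz).1]
  have s2 : sphere (0 : ℝ × ℝ) 1 ⊆ R := fun z hz =>
    ⟨sQ hz, fun h => (mem_ball_zero_iff.1 (d4 h.1)).ne (mem_sphere_zero_iff_norm.1 hz)⟩
  have s3 : ∀ z ∈ sphere (0 : ℝ × ℝ) 1, Ψ (φ z) = θ.f z := fun z hz =>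
    (q1.fix _ (p4 z (s2 hz)) (by rw [s1 z (s2 hz), mem_sphere_zero_iff_norm.1 hz, sub_self])).trans
      (p2 (s2 hz))
  have s4 : (fun z => Ψ (φ z)) '' sphere 0 1 = g '' {y | y 0 = a} := by
    rw [image_congr s3]
    refine Subset.antisymm ?_ ?_
    · rintro _ ⟨z, hz, rfl⟩
      obtain ⟨y, hy, rfl⟩ := (r1 z (s2 hz)).1
      exact ⟨y, m2.injective (((m4 y).symm.trans (mem_sphere_zero_iff_norm.1 hz)).trans m3.symm),
        (hθ y hy).1.symm⟩
    · rintro _ ⟨y, rfl, rfl⟩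
      exact ⟨h y, mem_sphere_zero_iff_norm.2 ((m4 y).trans m3), (hθ y ha.le).1⟩
  refine ⟨_, s4 ▸ isBall_real2.map (equivOfInjOn (convex_closedBall _ _).finConv isClosed_closedBall
    (q1.pl.comp p3 p7) (q1.inj.comp p6 p7)), ?_, s4 ▸ Subset.antisymm ?_ ?_⟩
  · rintro _ ⟨z, hz, rfl⟩
    exact q1.maps (p7 hz)
  · rintro _ ⟨⟨z, hz, rfl⟩, h⟩
    have h1 := p5 z hz (q1.bd _ (p7 hz) h ▸ h)
    refine ⟨z, mem_sphere_zero_iff_norm.2 ((mem_closedBall_zero_iff.1 hz).antisymm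
      (le_of_not_gt fun h2 => q2 _ ⟨z, h1, rfl⟩ ?_ h)), rfl⟩
    rwa [s1 z h1, sub_pos]
  · rintro _ ⟨z, hz, rfl⟩
    exact ⟨⟨z, sQ hz, rfl⟩, by simp only [s3 z hz, ← p2 (s2 hz), p4 z (s2 hz)]⟩

theorem loop_of_circ {E : Type*} [NormedAddCommGroup E] [NormedSpace ℝ E] {G : Set E}
    (γ : PLEquiv (sph 2) G) : Loop G fun s => γ.f (pol ![s, 0]) := by
  have r0 : rho 0 = 1 := by rw [rho_of_le (by simp)]; ring
  have m : ∀ s, pol ![s, 0] ∈ sph 2 := fun s => mem_sphere_zero_iff_norm.2 ((norm_pol _).trans r0)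
  refine ⟨fun R => γ.pf.comp (plOn_of_locPL (locPL_comp locPL_pol (locPL_of_plOn (pl_vec2 (plOn_id _)
    (plOn_const 0 _)) univ) (mapsTo_univ _ _)) isCompact_Icc (subset_univ _)) fun s _ => m s,
    Subset.antisymm (by rintro _ ⟨s, rfl⟩; exact γ.mf (m s)) fun x hx => ?_, fun s t =>
    (γ.injOn.eq_iff (m s) (m t)).trans ((pol_fib _ _).trans (and_iff_left rfl))⟩
  obtain ⟨s, hs⟩ := pol_sur 0 _ ((mem_sphere_zero_iff_norm.1 (γ.mg hx)).trans r0.symm)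
  exact ⟨s, by simp only [hs, γ.ri x hx]⟩

/-- **DEHN** -/
theorem dehn (hL : Tw9.LTc) (hA : Geo46.AnbStmt) : DehnStmt := by
  intro M dM G γ f hM hG f1 f2 f3
  have l := loop_of_circ γ
  obtain ⟨A, g, g1, g2, g3, g4⟩ := hA M dM G _ hM hG l
  obtain ⟨c, c1, c2⟩ := exists_coc g1
  have hM' := Tw9.mfE_of_mf hM
  have eG : g '' {y | y 0 = 0} = G := by
    rw [← (Ann83.ann_loop g1 (c := 0) (by simp)).img, funext g3, l.img]
  have FA : g '' {y | |y 0| < 1} ⊆ A := g1.img ▸ image_mono fun y (hy : |y 0| < 1) => hy.le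
  obtain ⟨D, d1, d2, d3, d4⟩ := hL _ M dM _ c f hM g4 (c1.mono FA) f1 f2
    (fun x hx => image_mono (fun (y : P) (hy : y 0 = 0) => by simp [hy]) (eG.ge (f3 hx ▸ γ.mf hx)))
    fun ⟨b, hb⟩ => c2 0 (by simp) ⟨_, fun x hx => by
      have k : ∀ x ∈ G, f (γ.g x) = x := fun x hx => (f3 (γ.mg hx)).trans (γ.ri x hx)
      rw [eG] at hx ⊢
      filter_upwards [hb.comp γ.pg.1 γ.mg x hx, self_mem_nhdsWithin] with y h1 hy
      rwa [k x hx, k y hy] at h1⟩
  obtain ⟨τ, t1, t2⟩ := ann_pl g1 (g := fun y => y 0) (fun _ => pl_coord 0 _)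
    fun y y' a b e => ((g1.fib y y' a b).1 e).1
  obtain ⟨a, ha, h1⟩ := d1.isCompact_bdry.exists_forall_le' (t1.1.mono (d3.trans FA)) (a := -1) (by
    intro x hx
    obtain ⟨y, hy, rfl⟩ := d3 hx
    exact t2 y (le_of_lt hy) ▸ (abs_lt.1 hy).1)
  have hb := min_le_left a 0
  have hb' := min_le_right a 0
  have hb'' := lt_min ha neg_one_lt_zero
  obtain ⟨D', e1, e2, e3⟩ := add (a := (min a 0 - 1) / 2) hM' g1 g2 g4
    (abs_lt.2 ⟨by linarith, by linarith⟩) (c1.mono FA) ⟨d1, d2, fun x hx => by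
      obtain ⟨y, hy, rfl⟩ := d3 hx
      have := h1 _ hx
      rw [t2 y (le_of_lt hy)] at this
      exact ⟨y, ⟨by linarith, (abs_lt.1 hy).2⟩, rfl⟩, d4⟩
  have k : ∀ s : Set ℝ, (fun y : P => g ![-y 0, y 1]) '' {y | -y 0 ∈ s} = g '' {y | y 0 ∈ s} := fun s =>
    Subset.antisymm (by rintro _ ⟨y, hy, rfl⟩; exact ⟨_, hy, rfl⟩) (by
      rintro _ ⟨y, hy, rfl⟩
      exact ⟨![-y 0, y 1], by simpa using hy, congrArg g (by ext i; fin_cases i <;> simp)⟩)
  have k1 : (fun y : P => g ![-y 0, y 1]) '' {y | |y 0| < 1} = g '' {y | |y 0| < 1} := by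
    simpa using k {t | |t| < 1}
  have k2 : (fun y : P => g ![-y 0, y 1]) '' {y | y 0 = 0} = G := by simpa [eG] using k {0}
  exact k2 ▸ add (a := 0) hM' (ann_mirror g1) g2 (k1 ▸ g4) (by simp) (k1 ▸ c1.mono FA) (D := D')
    ⟨e3 ▸ e1, e2, e3 ▸ by
      rintro _ ⟨y, hy : y 0 = _, rfl⟩
      exact ⟨![-y 0, y 1], ⟨show 0 < -y 0 by linarith, show -y 0 < 1 by linarith⟩,
        congrArg g (by ext i; fin_cases i <;> simp)⟩,
      e3 ▸ c2 _ (abs_le.2 ⟨by linarith, by linarith⟩)⟩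

end Crest.Agent.X212.Deh83
end

-- ▼ part X212/Glb47/Wrap
section

/-!
# X212 / Glb47 (helper47): smooth handle straightening from the PL one
-/

set_option autoImplicit false

open Set Filter Topology Function Metric
open scoped ContDiff Manifold
open Crest.Agent.R096.P5Spec_205 (HomeoOn)
open Crest.Agent.X212.Smo49 (PLAt str_iff plAt_of_univ SmOn)

noncomputable section

namespace Crest.Agent.X212.Glb47

theorem homeoOn_of_emb {h : E3 → E3} (hh : IsOpenEmbedding h) : HomeoOn h univ (range h) := by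
  refine ⟨⟨fun x _ => mem_range_self x, hh.injective.injOn, image_univ.ge⟩,
    hh.continuous.continuousOn, (hh.toOpenPartialHomeomorph h).symm, ?_, fun x _ =>
      hh.toOpenPartialHomeomorph_left_inv⟩
  simpa using (hh.toOpenPartialHomeomorph h).continuousOn_symm

theorem emb_of_homeoOn {h : E3 → E3} {La : Set E3} (hLa : IsOpen La) (hh : HomeoOn h univ La) :
    IsOpenEmbedding h ∧ range h = La :=
  ⟨.of_continuous_injective_isOpenMap (continuousOn_univ.1 hh.cont) (injOn_univ.1 hh.bij.injOn)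
    fun _ hP => Smo49.isOpen_image hLa hh hP (subset_univ _), image_univ.symm.trans hh.bij.image_eq⟩

theorem exists_factor {X Y : Type*} [TopologicalSpace X] [TopologicalSpace Y] {h h' : X → Y}
    (hh : IsEmbedding h) (hh' : IsEmbedding h') (e : range h' = range h) :
    ∃ ψ : X ≃ₜ X, ∀ x, h (ψ x) = h' x :=
  ⟨(hh'.toHomeomorph.trans (Homeomorph.setCongr e)).trans hh.toHomeomorph.symm, fun x =>
    congrArg Subtype.val (hh.toHomeomorph.apply_symm_apply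
      (Homeomorph.setCongr e (hh'.toHomeomorph x)))⟩

theorem plAt_clm {E F : Type*} [NormedAddCommGroup E] [NormedSpace ℝ E] [NormedAddCommGroup F]
    [NormedSpace ℝ F] (L : E ≃L[ℝ] F) (x : E) : PLAt L x :=
  plAt_of_univ (R096.Bd_416.pl_clm (R096.Ce_537.plOn_id _) (L : E →L[ℝ] F)) x

theorem isCompact_Cb (k : ℕ) (R : ℝ) : IsCompact (Cb k R) := by
  have : Cb k R = closedBall 0 R ∩ ⋃ i ∈ {i : Fin 3 | i.val < k}, {x : F3 | 3 / 4 ≤ |x i|} := by
    ext x; simp [Cb]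
  rw [this]
  exact (isCompact_closedBall _ _).inter_right ((toFinite _).isClosed_biUnion fun i _ =>
    isClosed_le continuous_const (by fun_prop))

theorem isCompact_Db (k : ℕ) : IsCompact (Db k) := by
  have : Db k = closedBall 0 1 ∩ ⋂ i ∈ {i : Fin 3 | k ≤ i.val}, {x : F3 | x i = 0} := by
    ext x; simp [Db]
  rw [this]
  exact (isCompact_closedBall _ _).inter_right (isClosed_biInter fun i _ =>
    isClosed_eq (by fun_prop) continuous_const)

/-- **smooth handle straightening from the PL one** -/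
theorem HPL.hs {k : ℕ} (H : HPL k) : HS k := by
  intro h hh hs
  obtain ⟨R, H⟩ := H
  let L : E3 ≃L[ℝ] F3 := EuclideanSpace.equiv (Fin 3) ℝ
  have cL : ∀ {K : Set F3}, IsCompact K → IsCompact (L ⁻¹' K) := fun hK =>
    L.toHomeomorph.isCompact_preimage.2 hK
  set U : Set E3 := {x | ∃ i : Fin 3, i.val < k ∧ 1 / 2 < |x i|} with hU
  set W : Set E3 := {x | ∀ i : Fin 3, i.val < k → |x i| < 1} with hW
  have oU : IsOpen U := by
    have : U = ⋃ i ∈ {i : Fin 3 | i.val < k}, {x : E3 | 1 / 2 < |x i|} := by ext x; simp [hU]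
    rw [this]
    exact isOpen_biUnion fun i _ => isOpen_lt continuous_const (by fun_prop)
  have oW : IsOpen W := by
    have : W = ⋂ i ∈ {i : Fin 3 | i.val < k}, {x : E3 | |x i| < 1} := by ext x; simp [hW]
    rw [this]
    exact (toFinite _).isOpen_biInter fun i _ => isOpen_lt (by fun_prop) continuous_const
  have sU : ∀ x ∈ U, Sm h x := fun x ⟨i, hi, hx⟩ => hs x ⟨i, hi, hx.le⟩
  obtain ⟨h', a1, ⟨K, a2, -, a3⟩, O, a4, a5, -, a6⟩ := Smo49.wrap isOpen_univ hh.isOpen_range oU oW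
    (subset_univ _) (cL (isCompact_Cb k R))
    (fun x ⟨_, i, hi, hx⟩ => ⟨i, hi, lt_of_lt_of_le (by norm_num) hx⟩) (cL (isCompact_Db k))
    (fun x _ => by
      by_cases hx : x ∈ W
      · exact Or.inl hx
      · simp only [hW, mem_ofPred_eq, not_forall, not_lt] at hx
        obtain ⟨i, hi, hx⟩ := hx
        exact Or.inr ⟨i, hi, by linarith⟩)
    (homeoOn_of_emb hh) ⟨fun x hx => (sU x hx).1.self_of_nhds.contDiffWithinAt, fun x hx => (sU x hx).2⟩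
    (by
      rintro h1 b1 ⟨V, b2, b3, b4⟩
      obtain ⟨b5, b6⟩ := emb_of_homeoOn hh.isOpen_range b1
      obtain ⟨ψ, K, P, c1, c2, c3, c4, c5, c6⟩ := H (fun y => L (h1 (L.symm y)))
        ((L.toHomeomorph.isOpenEmbedding.comp b5).comp L.symm.toHomeomorph.isOpenEmbedding)
        ⟨L.symm ⁻¹' V, b2.preimage L.symm.continuous, fun y hy => b3 (by simpa using hy),
          str_iff.2 fun y hy => (plAt_clm L _).comp ((str_iff.1 b4 _ hy).comp (plAt_clm L.symm y))⟩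
      let χ : E3 ≃ₜ E3 := (L.toHomeomorph.trans ψ).trans L.symm.toHomeomorph
      refine ⟨h1 ∘ χ, ?_, ⟨L ⁻¹' K, cL c1, fun x hx => c2 _ hx, fun x hx => ?_⟩, L ⁻¹' P,
        c4.preimage L.continuous, preimage_mono c5, subset_univ _, str_iff.2 fun x hx => ?_⟩
      · rw [← b6, ← χ.surjective.range_comp h1]
        exact homeoOn_of_emb (b5.comp χ.isOpenEmbedding)
      · show h1 (L.symm (ψ (L x))) = h1 x
        rw [c3 _ hx.2, L.symm_apply_apply]
      · exact ((plAt_clm L.symm _).comp ((str_iff.1 c6 _ hx).comp (plAt_clm L x))).congr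
          (Eventually.of_forall fun y => (L.symm_apply_apply _).symm))
  obtain ⟨b5, b6⟩ := emb_of_homeoOn hh.isOpen_range a1
  obtain ⟨ψ, hψ⟩ := exists_factor hh.isEmbedding b5.isEmbedding b6
  obtain ⟨r, hr⟩ := a2.isBounded.subset_ball 0
  refine ⟨ψ, ⟨r, fun x hx => hh.injective ((hψ x).trans (a3 x ⟨mem_univ _, fun h => ?_⟩))⟩,
    fun x hx => ?_⟩
  · exact absurd (mem_ball_zero_iff.1 (hr h)) (not_lt.2 hx)
  · have hO : x ∈ O := by
      refine a5 ?_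
      by_cases h1 : x ∈ W
      · refine Or.inl ⟨(pi_norm_le_iff_of_nonneg zero_le_one).2 fun i => ?_, hx⟩
        rcases lt_or_ge i.val k with hi | hi
        · exact (h1 i hi).le
        · show ‖x i‖ ≤ 1
          rw [hx i hi]; simp
      · refine Or.inr ⟨?_, h1⟩
        simp only [hW, mem_ofPred_eq, not_forall, not_lt] at h1
        obtain ⟨i, hi, h1⟩ := h1
        exact ⟨i, hi, by linarith⟩
    rw [show h ∘ ψ = h' from funext hψ]
    refine ⟨?_, a6.2 x hO⟩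
    filter_upwards [a4.mem_nhds hO] with y hy using a6.1.contDiffAt (a4.mem_nhds hy)

end Crest.Agent.X212.Glb47
end
end

-- ▼ part X212/Glb47/Grid
section

/-!
# X212 / Glb47 (helper47): relative smoothing of an open embedding of `ℝ³` near a compact set
-/

set_option autoImplicit false

open Set Filter Topology Function Metric
open scoped ContDiff Manifold
open Crest.Agent.X212.Glue52

noncomputable section

namespace Crest.Agent.X212.Glb47

/-- centre of a grid cell -/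
def ctr (δ : ℝ) (c : Fin 3 → ℤ) : E3 := WithLp.toLp 2 fun i => δ * c i

/-- directions of a grid cell -/
def dirs (c : Fin 3 → ℤ) : Finset (Fin 3) := Finset.univ.filter fun i => Odd (c i)

/-- closed grid cell -/
def gcl (δ : ℝ) (c : Fin 3 → ℤ) : Set E3 := cl (ctr δ c) (dirs c) δ

/-- open grid cell -/
def gop (δ : ℝ) (c : Fin 3 → ℤ) : Set E3 := op (ctr δ c) (dirs c) δ

/-- the finite complex -/
def cx (n : ℕ) : Finset (Fin 3 → ℤ) := Fintype.piFinset fun _ => Finset.Icc (-(2 * n : ℤ)) (2 * n)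

theorem mem_dirs {c : Fin 3 → ℤ} {i : Fin 3} : i ∈ dirs c ↔ Odd (c i) := by simp [dirs]

theorem mem_cx {n : ℕ} {c : Fin 3 → ℤ} : c ∈ cx n ↔ ∀ i, -(2 * n : ℤ) ≤ c i ∧ c i ≤ 2 * n := by
  simp [cx]

theorem int_close {δ : ℝ} (h : 0 < δ) {m m' : ℤ} {k : ℤ} (H : |δ * m - δ * m'| < k * δ) :
    |m - m'| < k := by
  rw [← mul_sub, abs_mul, abs_of_pos h, mul_comm, mul_lt_mul_iff_left₀ h] at H
  exact_mod_cast H

theorem gcl_sub {δ : ℝ} (h : 0 < δ) {c c' : Fin 3 → ℤ} {x : E3} (h1 : x ∈ gop δ c)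
    (h2 : x ∈ gcl δ c') : gcl δ c ⊆ gcl δ c' := by
  intro u hu i
  have a := h1 i
  have b := h2 i
  have d := hu i
  simp only [mem_dirs, ctr] at a b d ⊢
  by_cases o : Odd (c i)
  · have e : c i = c' i := by
      by_cases o' : Odd (c' i)
      · have : |c i - c' i| < 2 := int_close h (by
          have := abs_lt.1 (a.1 o)
          have := abs_le.1 (b.1 o')
          rw [abs_lt]; push_cast; constructor <;> linarith)
        obtain ⟨p, hp⟩ := o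
        obtain ⟨q, hq⟩ := o'
        rw [abs_lt] at this
        omega
      · have : |c i - c' i| < 1 := int_close h (by
          have := a.1 o
          rw [b.2 o', abs_sub_comm] at this
          simpa using this)
        rw [abs_lt] at this
        omega
    rwa [← e]
  · rw [d.2 o, ← a.2 o]
    exact b

theorem exists_face {δ : ℝ} {n : ℕ} {c : Fin 3 → ℤ} (hc : c ∈ cx n) {x : E3}
    (hx : x ∈ gcl δ c \ gop δ c) :
    ∃ c' ∈ cx n, (dirs c').card < (dirs c).card ∧ x ∈ gcl δ c' := by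
  obtain ⟨h1, h2⟩ := hx
  obtain ⟨j, hj, hxj⟩ : ∃ j, Odd (c j) ∧ |x j - δ * c j| = δ := by
    by_contra hn
    push Not at hn
    exact h2 fun i => ⟨fun hi => lt_of_le_of_ne ((h1 i).1 hi) (hn i (mem_dirs.1 hi)), (h1 i).2⟩
  obtain ⟨m, hm, hxm⟩ : ∃ m : ℤ, (m = c j + 1 ∨ m = c j - 1) ∧ x j = δ * m := by
    rcases abs_eq_abs.1 (hxj.trans (abs_of_nonneg (hxj ▸ abs_nonneg _)).symm) with h | h
    · exact ⟨_, Or.inl rfl, by push_cast; linarith⟩
    · exact ⟨_, Or.inr rfl, by push_cast; linarith⟩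
  have no : ¬ Odd m := by
    obtain ⟨p, hp⟩ := hj
    rintro ⟨q, hq⟩
    omega
  refine ⟨update c j m, mem_cx.2 fun i => ?_, Finset.card_lt_card ⟨fun i hi => ?_, fun h => ?_⟩,
    fun i => ?_⟩
  · by_cases h : i = j
    · subst h
      have := mem_cx.1 hc i
      obtain ⟨p, hp⟩ := hj
      rw [update_self]
      omega
    · rw [update_of_ne h]
      exact mem_cx.1 hc i
  · by_cases h : i = j
    · exact h ▸ mem_dirs.2 hj
    · rwa [mem_dirs, update_of_ne h, ← mem_dirs] at hi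
  · have := mem_dirs.1 (h (mem_dirs.2 hj))
    rw [update_self] at this
    exact no this
  · by_cases h : i = j
    · subst h
      simp only [mem_dirs, ctr, update_self]
      exact ⟨fun h => absurd h no, fun _ => hxm⟩
    · have := h1 i
      simp only [mem_dirs, ctr, update_of_ne h] at this ⊢
      exact this

theorem exists_cell {δ : ℝ} (h : 0 < δ) {n : ℕ} {x : E3} (hx : ∀ i, |x i| < 2 * n * δ) :
    ∃ c ∈ cx n, x ∈ gcl δ c := by
  have h2 : 0 < 2 * δ := by positivity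
  refine ⟨fun i => 2 * ⌊x i / (2 * δ)⌋ + 1, mem_cx.2 fun i => ?_, fun i => ?_⟩
  · have := abs_lt.1 (hx i)
    have a : -(n : ℤ) ≤ ⌊x i / (2 * δ)⌋ := Int.le_floor.2 (by
      rw [le_div_iff₀ h2]; push_cast; linarith)
    have b : ⌊x i / (2 * δ)⌋ < n := Int.floor_lt.2 (by
      rw [div_lt_iff₀ h2]; push_cast; linarith)
    omega
  · have a := Int.floor_le (x i / (2 * δ))
    have b := Int.lt_floor_add_one (x i / (2 * δ))
    rw [le_div_iff₀ h2] at a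
    rw [div_lt_iff₀ h2] at b
    simp only [mem_dirs, ctr]
    refine ⟨fun _ => ?_, fun hn => absurd ⟨_, rfl⟩ hn⟩
    rw [abs_le]; push_cast; constructor <;> linarith

variable {N : Type*} [TopologicalSpace N] [ChartedSpace E3 N]

/-- the invariant of the induction over the cells -/
def Inv (δ : ℝ) (n : ℕ) (h : E3 → N) (A : Set E3)
    (b : (Fin 3 → ℤ) → PartialDiffeomorph 𝓘(ℝ, E3) 𝓘(ℝ, E3) N E3 ∞) (S : Finset (Fin 3 → ℤ)) : Prop :=
  ∃ (ψ : E3 ≃ₜ E3) (K : Set E3), IsCompact K ∧ (∀ x, x ∉ K → ψ x = x) ∧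
    (∀ x ∈ A, IsLocalDiffeomorphAt 𝓘(ℝ, E3) 𝓘(ℝ, E3) ∞ (h ∘ ψ) x) ∧
    (∀ c ∈ S, ∀ x ∈ gcl δ c, IsLocalDiffeomorphAt 𝓘(ℝ, E3) 𝓘(ℝ, E3) ∞ (h ∘ ψ) x) ∧
    ∀ c ∈ cx n, ∀ x ∈ gcl δ c, h (ψ x) ∈ (b c).source

theorem Inv.step (H : ∀ J, HJ J) {δ : ℝ} (hδ : 0 < δ) {n : ℕ} {h : E3 → N} (hh : IsOpenEmbedding h)
    {A : Set E3} (hA : IsClosed A)
    {b : (Fin 3 → ℤ) → PartialDiffeomorph 𝓘(ℝ, E3) 𝓘(ℝ, E3) N E3 ∞} {S : Finset (Fin 3 → ℤ)}
    (I : Inv δ n h A b S) (hS : S ⊆ cx n) {c : Fin 3 → ℤ} (hc : c ∈ cx n)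
    (hA' : c ∈ S ∨ Disjoint (gcl δ c) A)
    (hf : ∀ c' ∈ cx n, (dirs c').card < (dirs c).card → c' ∈ S) : Inv δ n h A b (insert c S) := by
  classical
  obtain ⟨ψ, K, k1, k2, i1, i2, i3⟩ := I
  by_cases hin : ∃ c' ∈ S, gcl δ c ⊆ gcl δ c'
  · obtain ⟨c', h1, h2⟩ := hin
    refine ⟨ψ, K, k1, k2, i1, fun d hd => ?_, i3⟩
    rcases Finset.mem_insert.1 hd with rfl | hd
    exacts [fun x hx => i2 c' h1 x (h2 hx), i2 d hd]
  have hA2 : Disjoint (gcl δ c) A := hA'.resolve_left fun h => hin ⟨c, h, Subset.rfl⟩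
  have hψ : IsOpenEmbedding (h ∘ ψ) := hh.comp ψ.isOpenEmbedding
  let U : (Fin 3 → ℤ) → Set E3 := fun d =>
    if gcl δ c ⊆ gcl δ d then (h ∘ ψ) ⁻¹' (b d).source else (gcl δ d)ᶜ
  have Uo : ∀ d, IsOpen (U d) := fun d => by
    simp only [U]
    split_ifs
    exacts [(b d).open_source.preimage hψ.continuous, (isClosed_cl _ _ _).isOpen_compl]
  let O : Set E3 := Aᶜ ∩ ⋂ d ∈ cx n, U d
  have Oo : IsOpen O := hA.isOpen_compl.inter (isOpen_biInter_finset fun d _ => Uo d)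
  have O1 : ∀ x ∈ O, ∀ d ∈ cx n, gcl δ c ⊆ gcl δ d → h (ψ x) ∈ (b d).source := fun x hx d hd h' => by
    have := mem_iInter₂.1 hx.2 d hd
    simp only [U, if_pos h'] at this
    exact this
  have O2 : ∀ x ∈ O, ∀ d ∈ cx n, ¬ gcl δ c ⊆ gcl δ d → x ∉ gcl δ d := fun x hx d hd h' => by
    have := mem_iInter₂.1 hx.2 d hd
    simp only [U, if_neg h'] at this
    exact this
  obtain ⟨χ, L, l1, l2, l3, l4⟩ := one_cell (c := ctr δ c) (H (dirs c)) hδ hψ (b c) Oo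
    (fun x hx => ⟨fun h => disjoint_left.1 hA2 (op_sub _ _ _ hx) h, mem_iInter₂.2 fun d hd => by
      simp only [U]
      split_ifs with h'
      exacts [i3 d hd x (h' (op_sub _ _ _ hx)), fun h'' => h' (gcl_sub hδ hx h'')]⟩)
    (fun x hx => O1 x hx c hc Subset.rfl)
    (fun x hx => by
      obtain ⟨c', h1, h2, h3⟩ := exists_face hc hx
      exact i2 c' (hf c' h1 h2) x h3)
  have keep : ∀ x, x ∉ O → IsLocalDiffeomorphAt 𝓘(ℝ, E3) 𝓘(ℝ, E3) ∞ (h ∘ ψ) x →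
      IsLocalDiffeomorphAt 𝓘(ℝ, E3) 𝓘(ℝ, E3) ∞ (h ∘ (χ.trans ψ)) x := fun x hx hl => by
    refine ld_congr hl ?_
    filter_upwards [l1.isClosed.isOpen_compl.mem_nhds fun h => hx (l2 h)] with z hz
    exact congrArg (h ∘ ψ) (l3 z hz)
  refine ⟨χ.trans ψ, L ∪ K, l1.union k1, fun x hx => ?_, fun x hx => keep x (fun h => h.1 hx) (i1 x hx),
    fun d hd x hx => ?_, fun d hd x hx => ?_⟩
  · rw [mem_union, not_or] at hx
    rw [Homeomorph.trans_apply, l3 x hx.1, k2 x hx.2]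
  · rcases Finset.mem_insert.1 hd with rfl | hd
    · exact l4 x hx
    · exact keep x (fun h => O2 x h d (hS hd) (fun h' => hin ⟨d, hd, h'⟩) hx) (i2 d hd x hx)
  · rw [Homeomorph.trans_apply]
    by_cases hL : x ∈ L
    · have hL' : χ x ∈ L := by
        by_contra hn
        exact hn (by rwa [χ.injective (l3 _ hn)])
      by_cases h' : gcl δ c ⊆ gcl δ d
      · exact O1 _ (l2 hL') d hd h'
      · exact absurd hx (O2 x (l2 hL) d hd h')
    · rw [l3 x hL]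
      exact i3 d hd x hx

/-- **relative smoothing**, source `ℝ³` -/
theorem rel [IsManifold 𝓘(ℝ, E3) ∞ N] (H : ∀ k, k ≤ 3 → HS k) {h : E3 → N} (hh : IsOpenEmbedding h)
    {A D : Set E3} (hA : IsClosed A) (hD : IsCompact D)
    (hl : ∀ x ∈ A, IsLocalDiffeomorphAt 𝓘(ℝ, E3) 𝓘(ℝ, E3) ∞ h x) :
    ∃ (ψ : E3 ≃ₜ E3) (K : Set E3), IsCompact K ∧ (∀ x, x ∉ K → ψ x = x) ∧
      ∀ x ∈ A ∪ D, IsLocalDiffeomorphAt 𝓘(ℝ, E3) 𝓘(ℝ, E3) ∞ (h ∘ ψ) x := by
  classical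
  have HJ' : ∀ J, HJ J := fun J => (H _ (by simpa using J.card_le_univ)).hj
  obtain ⟨R, R0, hR⟩ := hD.isBounded.subset_ball_lt 0 0
  let W : Set E3 := {x | IsLocalDiffeomorphAt 𝓘(ℝ, E3) 𝓘(ℝ, E3) ∞ h x}
  let U : N × Bool → Set E3 := fun p =>
    h ⁻¹' (chE 𝓘(ℝ, E3) p.1).source ∩ if p.2 then W else Aᶜ
  obtain ⟨ε, ε0, hε⟩ := lebesgue_number_lemma_of_metric (isCompact_closedBall (0 : E3) (2 * (R + 2)))
    (c := U) (fun p => ((chE _ p.1).open_source.preimage hh.continuous).inter (by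
      split_ifs
      exacts [isOpen_ld h, hA.isOpen_compl])) (fun x _ => by
      by_cases hx : x ∈ A
      · exact mem_iUnion.2 ⟨(h x, true), mem_extChartAt_source (I := 𝓘(ℝ, E3)) (h x), hl x hx⟩
      · exact mem_iUnion.2 ⟨(h x, false), mem_extChartAt_source (I := 𝓘(ℝ, E3)) (h x), hx⟩)
  set δ : ℝ := min (ε / 3) 1 with hδ
  have δ0 : 0 < δ := lt_min (by positivity) one_pos
  have δ1 : δ ≤ ε / 3 := min_le_left _ _
  have δ2 : δ ≤ 1 := min_le_right _ _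
  set n : ℕ := ⌈R / (2 * δ)⌉₊ with hn
  have n1 : R ≤ 2 * n * δ := by
    have := Nat.le_ceil (R / (2 * δ))
    rw [div_le_iff₀ (by positivity)] at this
    linarith
  have n2 : 2 * n * δ ≤ R + 2 := by
    have := Nat.ceil_lt_add_one (a := R / (2 * δ)) (by positivity)
    rw [← hn, ← sub_lt_iff_lt_add, lt_div_iff₀ (by positivity)] at this
    nlinarith
  have hU : ∀ c ∈ cx n, ∃ p, gcl δ c ⊆ U p := fun c hc => by
    obtain ⟨p, hp⟩ := hε (ctr δ c) (by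
      rw [mem_closedBall_zero_iff]
      refine norm_le_of_coord (by positivity) fun i => ?_
      have := mem_cx.1 hc i
      have h1 : |(c i : ℝ)| ≤ 2 * n := by
        rw [abs_le]
        exact ⟨by exact_mod_cast this.1, by exact_mod_cast this.2⟩
      simp only [ctr, abs_mul, abs_of_pos δ0]
      nlinarith)
    exact ⟨p, ((cl_sub_ball _ _ δ0.le).trans (closedBall_subset_ball (by linarith))).trans hp⟩
  have : Nonempty N := ⟨h 0⟩
  choose! p hp using hU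
  let b := fun c => chE 𝓘(ℝ, E3) (p c).1
  let G : Finset (Fin 3 → ℤ) := (cx n).filter fun c => (p c).2 = true
  let S : ℕ → Finset (Fin 3 → ℤ) := fun k => (cx n).filter fun c => c ∈ G ∨ (dirs c).card < k
  have main : ∀ k, Inv δ n h A b (S k) := by
    intro k
    induction k with
    | zero =>
      refine ⟨Homeomorph.refl _, ∅, isCompact_empty, fun _ _ => rfl, hl, fun c hc x hx => ?_,
        fun c hc x hx => (hp c hc hx).1⟩
      simp only [S, G, Finset.mem_filter, Nat.not_lt_zero, or_false] at hc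
      have := (hp c hc.1 hx).2
      rwa [if_pos hc.2.2] at this
    | succ k ih =>
      have inner : ∀ T : Finset (Fin 3 → ℤ), (∀ c ∈ T, c ∈ cx n ∧ (dirs c).card = k) →
          Inv δ n h A b (T ∪ S k) := by
        intro T
        induction T using Finset.induction_on with
        | empty => intro _; simpa using ih
        | insert c T _ ihT =>
          intro hT
          have hc := hT c (Finset.mem_insert_self _ _)
          rw [Finset.insert_union]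
          refine (ihT fun d hd => hT d (Finset.mem_insert_of_mem hd)).step HJ' δ0 hh hA
            (Finset.union_subset (fun d hd => (hT d (Finset.mem_insert_of_mem hd)).1)
              (Finset.filter_subset _ _)) hc.1 ?_ fun d hd h' => Finset.mem_union_right _
                (Finset.mem_filter.2 ⟨hd, Or.inr (hc.2 ▸ h')⟩)
          by_cases hg : (p c).2 = true
          · exact Or.inl (Finset.mem_union_right _
              (Finset.mem_filter.2 ⟨hc.1, Or.inl (Finset.mem_filter.2 ⟨hc.1, hg⟩)⟩))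
          · refine Or.inr (disjoint_left.2 fun x hx => ?_)
            have := (hp c hc.1 hx).2
            rwa [if_neg hg] at this
      have := inner ((cx n).filter fun c => (dirs c).card = k) fun c hc => Finset.mem_filter.1 hc
      convert this using 1
      ext c
      simp only [S, Finset.mem_union, Finset.mem_filter]
      constructor
      · rintro ⟨h1, h2 | h2⟩
        · exact Or.inr ⟨h1, Or.inl h2⟩
        · rcases Nat.lt_succ_iff_lt_or_eq.1 h2 with h3 | h3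
          exacts [Or.inr ⟨h1, Or.inr h3⟩, Or.inl ⟨h1, h3⟩]
      · rintro (⟨h1, h2⟩ | ⟨h1, h2 | h2⟩)
        exacts [⟨h1, Or.inr (by omega)⟩, ⟨h1, Or.inl h2⟩, ⟨h1, Or.inr (by omega)⟩]
  obtain ⟨ψ, K, k1, k2, i1, i2, -⟩ := main 4
  refine ⟨ψ, K, k1, k2, fun x hx => hx.elim (i1 x) fun hx => ?_⟩
  obtain ⟨c, hc, hxc⟩ := exists_cell δ0 (n := n) (x := x) fun i => by
    have h1 := mem_ball_zero_iff.1 (hR hx)
    have h2 : |x i| ≤ ‖x‖ := PiLp.norm_apply_le x i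
    linarith
  refine i2 c (Finset.mem_filter.2 ⟨hc, Or.inr ?_⟩) x hxc
  have := (dirs c).card_le_univ
  simp only [Fintype.card_fin] at this
  omega

end Crest.Agent.X212.Glb47
end
end

-- ▼ part X212/Glb47/Man
section

/-!
# X212 / Glb47 (helper47): handle straightening implies smoothing of homeomorphisms of 3-manifolds
-/

set_option autoImplicit false

open Set Filter Topology Function Metric
open scoped ContDiff Manifold
open Crest.Agent.X212.Glue52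

noncomputable section

namespace Crest.Agent.X212.Glb47

variable {EM : Type*} [NormedAddCommGroup EM] [NormedSpace ℝ EM] {HM : Type*} [TopologicalSpace HM]
  {I : ModelWithCorners ℝ EM HM} [I.Boundaryless] {M : Type*} [TopologicalSpace M]
  [ChartedSpace HM M] [IsManifold I ∞ M]
  {N : Type*} [TopologicalSpace N] [ChartedSpace E3 N] [IsManifold 𝓘(ℝ, E3) ∞ N]

/-- every point is the centre of a smooth open embedding of `ℝ³` -/
theorem exists_param (L : EM ≃L[ℝ] E3) (x : M) :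
    ∃ e : E3 → M, IsLocalDiffeomorph 𝓘(ℝ, E3) I ∞ e ∧ Injective e ∧ e 0 = x := by
  let a := chL I L x
  have xa : x ∈ a.source := mem_chL L x
  obtain ⟨e, e1, e2, e3, -, e5⟩ := exists_box (c := a x) (J := ∅) one_pos a.open_target isOpen_empty
    (fun y hy => by
      have : y = a x := by ext i; exact (hy i).2 (by simp)
      exact this ▸ a.map_source xa)
    (fun y hy => hy.2 fun i => ⟨fun h => by simp at h, (hy.1 i).2⟩)
  refine ⟨a.symm ∘ e, fun y => (e1 y).comp _ _ (a.symm.isLocalDiffeomorphAt _ _ _ (e3 y)),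
    fun y z h => e2 (a.symm.injOn (e3 y) (e3 z) h), ?_⟩
  rcases e5 (a x) (fun i => ⟨fun h => by simp at h, fun _ => rfl⟩) with ⟨y, hy, h⟩ | h
  · have : y = 0 := by ext i; exact hy i (by simp)
    subst this
    show a.symm (e 0) = x
    rw [h]
    exact a.left_inv xa
  · exact absurd h.2 (notMem_empty _)

/-- **G0**: an open embedding is smooth near a compact set after a compactly supported
homeomorphism of the source -/
theorem smooth_near [T2Space M] (H : ∀ k, k ≤ 3 → HS k) (L : EM ≃L[ℝ] E3) {f : M → N}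
    (hf : IsOpenEmbedding f) {D : Set M} (hD : IsCompact D) :
    ∃ (ψ : M ≃ₜ M) (K : Set M), IsCompact K ∧ (∀ x, x ∉ K → ψ x = x) ∧
      (ψ : C(M, M)).Homotopic (ContinuousMap.id M) ∧
      ∀ x ∈ D, IsLocalDiffeomorphAt I 𝓘(ℝ, E3) ∞ (f ∘ ψ) x := by
  classical
  choose e e1 e2 e3 using exists_param (I := I) (M := M) L
  have he : ∀ x, IsOpenEmbedding (e x) := fun x => ld_isOpenEmbedding (e1 x) (e2 x)
  obtain ⟨t, -, ht⟩ := hD.elim_nhds_subcover (fun x => e x '' closedBall 0 1) fun x _ => by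
    have := (he x).isOpenMap.image_mem_nhds (closedBall_mem_nhds (0 : E3) one_pos)
    rwa [e3] at this
  have main : ∀ t : Finset M, ∃ (ψ : M ≃ₜ M) (K : Set M), IsCompact K ∧ (∀ x, x ∉ K → ψ x = x) ∧
      (ψ : C(M, M)).Homotopic (ContinuousMap.id M) ∧
      ∀ x ∈ ⋃ p ∈ t, e p '' closedBall 0 1, IsLocalDiffeomorphAt I 𝓘(ℝ, E3) ∞ (f ∘ ψ) x := by
    intro t
    induction t using Finset.induction_on with
    | empty => exact ⟨Homeomorph.refl M, ∅, isCompact_empty, fun _ _ => rfl, .refl _, by simp⟩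
    | insert p t _ ih =>
      obtain ⟨ψ, K, k1, k2, k3, k4⟩ := ih
      have hc : IsClosed (⋃ p ∈ t, e p '' closedBall 0 1) :=
        (t.isCompact_biUnion fun q _ => (isCompact_closedBall _ _).image (he q).continuous).isClosed
      obtain ⟨χ, C, c1, c2, c3⟩ := rel H ((hf.comp ψ.isOpenEmbedding).comp (he p))
        (hc.preimage (he p).continuous) (isCompact_closedBall (0 : E3) 1)
        fun z hz => (e1 p z).comp _ _ (k4 _ hz)
      obtain ⟨Ψ, p1, p2, p3⟩ := exists_pushH_homotopic (he p) χ c1 c2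
      have cC := c1.image (he p).continuous
      refine ⟨Ψ.trans ψ, e p '' C ∪ K, cC.union k1, fun x hx => ?_, ?_, fun x hx => ?_⟩
      · rw [mem_union, not_or] at hx
        rw [Homeomorph.trans_apply, p2 x hx.1, k2 x hx.2]
      · simpa using k3.comp p3
      · rw [Finset.set_biUnion_insert] at hx
        by_cases hr : ∃ z, e p z = x
        · obtain ⟨z, rfl⟩ := hr
          refine ld_of_comp (e1 p z) ?_
          have : (f ∘ (Ψ.trans ψ)) ∘ e p = ((f ∘ ψ) ∘ e p) ∘ χ :=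
            funext fun w => congrArg (f ∘ ψ) (p1 w)
          rw [this]
          refine c3 z (hx.symm.imp id ?_)
          rintro ⟨w, hw, h⟩
          exact e2 p h ▸ hw
        · have hx' := hx.resolve_left fun ⟨z, _, h⟩ => hr ⟨z, h⟩
          refine ld_congr (k4 x hx') ?_
          filter_upwards [cC.isClosed.isOpen_compl.mem_nhds fun ⟨z, _, h⟩ => hr ⟨z, h⟩] with y hy
          exact congrArg (f ∘ ψ) (p2 y hy)
  obtain ⟨ψ, K, k1, k2, k3, k4⟩ := main t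
  exact ⟨ψ, K, k1, k2, k3, fun x hx => k4 x (ht hx)⟩

/-- **G1**: a homeomorphism of closed smooth three-manifolds is homotopic to a diffeomorphism -/
theorem exists_diffeo [T2Space M] [CompactSpace M] (H : ∀ k, k ≤ 3 → HS k) (L : EM ≃L[ℝ] E3)
    (f : M ≃ₜ N) : ∃ g : M ≃ₘ^∞⟮I, 𝓘(ℝ, E3)⟯ N,
      (g.toHomeomorph : C(M, N)).Homotopic (f : C(M, N)) := by
  obtain ⟨ψ, -, -, -, k3, k4⟩ := smooth_near (I := I) H L f.isOpenEmbedding isCompact_univ
  have ld : IsLocalDiffeomorph I 𝓘(ℝ, E3) ∞ (f ∘ ψ) := fun x => k4 x (mem_univ x)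
  refine ⟨ld.diffeomorphOfBijective (f.bijective.comp ψ.bijective), ?_⟩
  exact (ContinuousMap.Homotopic.refl (f : C(M, N))).comp k3

end Crest.Agent.X212.Glb47
end
end

-- ▼ part X212/Glb47/Main

/-!
# X212 / Glb47 (helper47): `Skel83.Tame` and `Skel83.Smooth` from PL handle straightening
-/

set_option autoImplicit false

open Set Filter Topology Function Metric
open scoped ContDiff Manifold
open Crest.Agent.X212.Glue52 Crest.Agent.X212.Ext52 Crest.GeometryTopology.DehnSurgery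

noncomputable section

namespace Crest.Agent.X212.Glb47

/-- a bounded smooth embedding of the line which is the identity on `[-1, 1]` -/
theorem exists_rho : ∃ ρ : ℝ → ℝ, ContDiff ℝ ∞ ρ ∧ (∀ t, 0 < deriv ρ t) ∧
    (∀ t, |t| ≤ 1 → ρ t = t) ∧ ∀ t, |ρ t| ≤ 6 := by
  let g : ℝ → ℝ := fun s => (1 + s ^ 2 * Real.smoothTransition (s ^ 2 - 1))⁻¹
  have p : ∀ s : ℝ, 1 ≤ 1 + s ^ 2 * Real.smoothTransition (s ^ 2 - 1) := fun s =>
    le_add_of_nonneg_right (mul_nonneg (sq_nonneg s) (Real.smoothTransition.nonneg _))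
  have cg : ContDiff ℝ ∞ g := (contDiff_const.add ((contDiff_id.pow 2).mul
    (Real.smoothTransition.contDiff.comp ((contDiff_id.pow 2).sub contDiff_const)))).inv
      fun s => (one_pos.trans_le (p s)).ne'
  have g0 : ∀ s, 0 < g s := fun s => inv_pos.2 (one_pos.trans_le (p s))
  have g1 : ∀ s, g s ≤ 3 * (1 / (1 + s ^ 2)) := fun s => by
    have q : 0 < 1 + s ^ 2 := by positivity
    rw [mul_one_div, le_div_iff₀ q]
    rcases le_total (s ^ 2) 2 with h | h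
    · have : g s ≤ 1 := inv_le_one_of_one_le₀ (p s)
      nlinarith [g0 s]
    · simp only [g, Real.smoothTransition.one_of_one_le (show 1 ≤ s ^ 2 - 1 by linarith), mul_one]
      rw [inv_mul_cancel₀ q.ne']
      norm_num
  have d : ∀ t, HasDerivAt (fun u => ∫ s in (0 : ℝ)..u, g s) (g t) t := fun t =>
    (cg.continuous.integral_hasStrictDerivAt 0 t).hasDerivAt
  have e : deriv (fun u => ∫ s in (0 : ℝ)..u, g s) = g := funext fun t => (d t).deriv
  refine ⟨fun u => ∫ s in (0 : ℝ)..u, g s,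
    contDiff_infty_iff_deriv.2 ⟨fun t => (d t).differentiableAt, e.symm ▸ cg⟩,
    fun t => e.symm ▸ g0 t, fun t ht => ?_, fun t => ?_⟩
  · show ∫ s in (0 : ℝ)..t, g s = t
    rw [intervalIntegral.integral_congr (g := fun _ => (1 : ℝ)) fun s hs => ?_]
    · simp
    · have h1 : |s| ≤ 1 := by simpa using (abs_sub_left_of_mem_uIcc hs).trans (by simpa using ht)
      have h2 : s ^ 2 - 1 ≤ 0 := by have := (sq_le_one_iff_abs_le_one s).2 h1; linarith
      simp [g, Real.smoothTransition.zero_of_nonpos h2]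
  · have m1 : Monotone fun u => ∫ s in (0 : ℝ)..u, g s :=
      monotone_of_hasDerivAt_nonneg d fun s => (g0 s).le
    have m2 : Monotone fun u => 3 * Real.arctan u - ∫ s in (0 : ℝ)..u, g s :=
      monotone_of_hasDerivAt_nonneg (fun t => ((Real.hasDerivAt_arctan t).const_mul 3).sub (d t))
        fun s => sub_nonneg.2 (g1 s)
    have a1 := Real.neg_pi_div_two_lt_arctan t
    have a2 := Real.arctan_lt_pi_div_two t
    have a3 := Real.pi_le_four
    rw [abs_le]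
    rcases le_total 0 t with h | h <;> have b1 := m1 h <;> have b2 := m2 h <;>
      simp only [intervalIntegral.integral_same, Real.arctan_zero] at b1 b2 <;>
      constructor <;> linarith

/-- a bounded smooth embedding of the plane which is the identity on the unit disc -/
theorem exists_shrink : ∃ r : ℂ → ℂ, IsLocalDiffeomorph 𝓘(ℝ, ℂ) 𝓘(ℝ, ℂ) ∞ r ∧ Injective r ∧
    (∀ z, ‖z‖ ≤ 1 → r z = z) ∧ ∀ z, ‖r z‖ ≤ 12 := by
  obtain ⟨ρ, h1, h2, h3, h4⟩ := exists_rho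
  have inj := (strictMono_of_deriv_pos h2).injective
  let e := Complex.equivRealProdCLM
  refine ⟨fun z => e.symm (Prod.map ρ ρ (e z)), fun z => ?_,
    e.symm.injective.comp ((inj.prodMap inj).comp e.injective), fun z hz => ?_, fun z => ?_⟩
  · let u : ℝ → ℝ ≃L[ℝ] ℝ := fun t => ContinuousLinearEquiv.unitsEquivAut ℝ (Units.mk0 _ (h2 t).ne')
    have du : ∀ t, HasFDerivAt ρ (u t : ℝ →L[ℝ] ℝ) t := fun t =>
      (h1.differentiable (by simp) t).hasDerivAt.hasFDerivAt_equiv (h2 t).ne'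
    exact ld_of_fderiv isOpen_univ (mem_univ z)
      (e.symm.contDiff.comp ((h1.prodMap h1).comp e.contDiff)).contDiffOn
      ((e.trans ((u z.re).prodCongr (u z.im))).trans e.symm)
      (e.symm.hasFDerivAt.comp z ((HasFDerivAt.prodMap (e z) (du _) (du _)).comp z e.hasFDerivAt))
  · rw [e.symm_apply_eq]
    exact Prod.ext (h3 _ ((Complex.abs_re_le_norm z).trans hz))
      (h3 _ ((Complex.abs_im_le_norm z).trans hz))
  · refine (Complex.norm_le_abs_re_add_abs_im _).trans ?_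
    have := h4 z.re
    have := h4 z.im
    show |ρ z.re| + |ρ z.im| ≤ 12
    linarith

theorem tame_of_hs (H : ∀ k, k ≤ 3 → HS k) : Skel83.Tame := by
  intro T
  obtain ⟨ψ, K, k1, k2, -, k4⟩ := smooth_near (I := IT) H Tube.LT T.isOpenEmbedding
    (isCompact_univ.prod (isCompact_closedBall (0 : ℂ) 12))
  obtain ⟨Ψ, p1, -⟩ := exists_pushH T.isOpenEmbedding ψ k1 k2
  obtain ⟨r, r1, r2, r3, r4⟩ := exists_shrink
  refine ⟨⟨(T.τ ∘ ψ) ∘ Prod.map id r, fun z => (ld_prodMap ld_id r1 z).comp _ _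
    (k4 _ ⟨mem_univ _, mem_closedBall_zero_iff.2 (r4 _)⟩),
    (T.isOpenEmbedding.injective.comp ψ.injective).comp (injective_id.prodMap r2)⟩, Ψ,
    fun z hz => ?_⟩
  show T.τ (ψ (z.1, r z.2)) = _
  rw [r3 _ hz, p1]

theorem smooth_of_hs (H : ∀ k, k ≤ 3 → HS k) : Skel83.Smooth := fun _ _ _ f =>
  exists_diffeo H (ContinuousLinearEquiv.refl ℝ _) f

theorem hs_of_plhs (H : ∀ K, Prd34.PLHS K) (k : ℕ) (_ : k ≤ 3) : HS k :=
  (Smo49.hpl_of_plhs k (H _)).hs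

/-- **layer T, first output** -/
theorem tame (H : ∀ K, Prd34.PLHS K) : Skel83.Tame := tame_of_hs (hs_of_plhs H)

/-- **layer T, second output** -/
theorem smooth (H : ∀ K, Prd34.PLHS K) : Skel83.Smooth := smooth_of_hs (hs_of_plhs H)

/-- row 212 from PL handle straightening and the smooth statement -/
theorem goal (H : ∀ K, Prd34.PLHS K) (C : Skel83.Core) : Skel83.Goal :=
  Skel83.goal_of (tame H) (smooth H) C

end Crest.Agent.X212.Glb47
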